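import Vale.Agent.Lib.P123.Core

/-!
Cartesian decomposition of an operator, and the bound for an operator with numerical range
in an ellipse.
-/

namespace Vale.Agent.Lib.P123

open Complex

variable {E : Type*} [NormedAddCommGroup E] [InnerProductSpace ℂ E]

/-- Cartesian decomposition. -/
lemma exists_cartesian [CompleteSpace E] (A : E →L[ℂ] E) :
    ∃ H K : E →L[ℂ] E, (∀ u v, inner ℂ (H u) v = inner ℂ u (H v)) ∧
      (∀ u v, inner ℂ (K u) v = inner ℂ u (K v)) ∧ A = H + I • K := by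
  refine ⟨(1 / 2 : ℂ) • (A + ContinuousLinearMap.adjoint A),
    (-(I / 2)) • (A - ContinuousLinearMap.adjoint A), ?_, ?_, ?_⟩
  · intro u v
    simp only [smul_apply, add_apply, inner_smul_left, inner_smul_right, inner_add_left,
      inner_add_right, ContinuousLinearMap.adjoint_inner_left,
      ContinuousLinearMap.adjoint_inner_right]
    simp
    rw [show (starRingEnd ℂ) 2 = (2 : ℂ) from map_ofNat _ 2]
    ring
  · intro u v
    simp only [smul_apply, sub_apply, inner_smul_left, inner_smul_right, inner_sub_left,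
      inner_sub_right, ContinuousLinearMap.adjoint_inner_left,
      ContinuousLinearMap.adjoint_inner_right]
    simp
    rw [show (starRingEnd ℂ) 2 = (2 : ℂ) from map_ofNat _ 2]
    ring
  · ext v
    simp only [add_apply, smul_apply, sub_apply, smul_add, smul_sub, smul_smul]
    have h1 : I * -(I / 2) = (1 / 2 : ℂ) := by
      field_simp
      simp
    rw [h1]
    module

/-- Extending a form bound from unit vectors to all vectors. -/
lemma form_scale (L : E →L[ℂ] E) {n : ℝ}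
    (h : ∀ v, ‖v‖ = 1 → |(inner ℂ v (L v)).re| ≤ n) (v : E) :
    |(inner ℂ v (L v)).re| ≤ n * ‖v‖ ^ 2 := by
  by_cases hv : v = 0
  · simp [hv]
  have hn : ‖v‖ ≠ 0 := norm_ne_zero_iff.mpr hv
  set c : ℂ := ((‖v‖⁻¹ : ℝ) : ℂ) with hc
  have hu : ‖c • v‖ = 1 := by
    rw [norm_smul, hc, Complex.norm_real, Real.norm_eq_abs, abs_of_pos (by positivity)]
    field_simp
  have h1 := h _ hu
  have e : (inner ℂ (c • v) (L (c • v))).re = (‖v‖⁻¹) ^ 2 * (inner ℂ v (L v)).re := by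
    rw [map_smul, inner_smul_left, inner_smul_right, hc]
    simp only [Complex.conj_ofReal, ← mul_assoc, ← Complex.ofReal_mul, Complex.re_ofReal_mul]
    ring
  rw [e, abs_mul, abs_of_nonneg (by positivity : 0 ≤ (‖v‖⁻¹) ^ 2)] at h1
  have hpos : 0 < ‖v‖ ^ 2 := by positivity
  have : (‖v‖⁻¹) ^ 2 * ‖v‖ ^ 2 = 1 := by field_simp
  calc |(inner ℂ v (L v)).re| = (‖v‖⁻¹) ^ 2 * |(inner ℂ v (L v)).re| * ‖v‖ ^ 2 := by
        calc |(inner ℂ v (L v)).re| = ((‖v‖⁻¹) ^ 2 * ‖v‖ ^ 2) * |(inner ℂ v (L v)).re| := by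
              rw [this, one_mul]
          _ = _ := by ring
    _ ≤ n * ‖v‖ ^ 2 := mul_le_mul_of_nonneg_right h1 hpos.le

/-- Norm from the real part of the pairing with unit vectors. -/
lemma opNorm_le_of_re (T : E →L[ℂ] E) {B : ℝ} (hB : 0 ≤ B)
    (h : ∀ x y : E, ‖x‖ = 1 → ‖y‖ = 1 → (inner ℂ y (T x)).re ≤ B) : ‖T‖ ≤ B := by
  refine ContinuousLinearMap.opNorm_le_bound _ hB ?_
  intro x
  by_cases hx : x = 0
  · simp [hx]
  have hxn : ‖x‖ ≠ 0 := norm_ne_zero_iff.mpr hx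
  by_cases hT : T x = 0
  · rw [hT, norm_zero]; positivity
  have hTn : ‖T x‖ ≠ 0 := norm_ne_zero_iff.mpr hT
  set c : ℂ := ((‖x‖⁻¹ : ℝ) : ℂ) with hc
  set d : ℂ := ((‖T x‖⁻¹ : ℝ) : ℂ) with hd
  have hu : ‖c • x‖ = 1 := by
    rw [norm_smul, hc, Complex.norm_real, Real.norm_eq_abs, abs_of_pos (by positivity)]
    field_simp
  have hw : ‖d • T x‖ = 1 := by
    rw [norm_smul, hd, Complex.norm_real, Real.norm_eq_abs, abs_of_pos (by positivity)]
    field_simp
  have h1 := h _ _ hu hw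
  have e : (inner ℂ (d • T x) (T (c • x))).re = ‖T x‖⁻¹ * ‖x‖⁻¹ * ‖T x‖ ^ 2 := by
    rw [map_smul, inner_smul_left, inner_smul_right, hc, hd, ← nsq_eq_re (T x)]
    simp only [Complex.conj_ofReal, ← mul_assoc, ← Complex.ofReal_mul, Complex.re_ofReal_mul]
  rw [e] at h1
  have hxp : 0 < ‖x‖ := by positivity
  have hTp : 0 < ‖T x‖ := by positivity
  have : ‖T x‖⁻¹ * ‖x‖⁻¹ * ‖T x‖ ^ 2 = ‖T x‖ / ‖x‖ := by field_simp
  rw [this, div_le_iff₀ hxp] at h1
  exact h1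

/-- The numerical range in an ellipse gives a norm bound on `A * A - 1`. -/
lemma ellipse_bound [CompleteSpace E] (A : E →L[ℂ] E) {κ a β e₀ : ℝ} (ha : 0 < a) (hβ : 0 < β)
    (he : 0 ≤ e₀) (heκ : e₀ ≤ κ)
    (hE : ∀ v : E, ‖v‖ = 1 →
      ((inner ℂ v (A v)).re - κ) ^ 2 / a ^ 2 + (inner ℂ v (A v)).im ^ 2 / β ≤ 1) :
    ‖A * A - 1‖ ≤ a * (2 * κ - e₀) +
        Real.sqrt ((κ ^ 2 - 1 + (a ^ 2 - β) / 2 - e₀ ^ 2 / 2 + a * e₀) ^ 2 + (2 * κ - e₀) ^ 2 * β)
        + a ^ 2 + β + e₀ ^ 2 / 2 := by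
  obtain ⟨H, K, hH, hK, hA⟩ := exists_cartesian A
  -- the forms
  have hHim : ∀ v, (inner ℂ v (H v)).im = 0 := im_form_eq_zero H hH
  have hKim : ∀ v, (inner ℂ v (K v)).im = 0 := im_form_eq_zero K hK
  have hz : ∀ v, inner ℂ v (A v) =
      (((inner ℂ v (H v)).re : ℝ) : ℂ) + I * (((inner ℂ v (K v)).re : ℝ) : ℂ) := by
    intro v
    rw [hA]
    simp only [add_apply, smul_apply, inner_add_right, inner_smul_right]
    congr 1
    · apply Complex.ext <;> simp [hHim]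
    · congr 1
      apply Complex.ext <;> simp [hKim]
  have hzre : ∀ v, (inner ℂ v (A v)).re = (inner ℂ v (H v)).re := by
    intro v; rw [hz]; simp
  have hzim : ∀ v, (inner ℂ v (A v)).im = (inner ℂ v (K v)).re := by
    intro v; rw [hz]; simp
  set U : E →L[ℂ] E := H - (κ : ℂ) • 1 with hUdef
  have hU : ∀ u v, inner ℂ (U u) v = inner ℂ u (U v) := by
    intro u v
    simp [hUdef, inner_sub_left, inner_sub_right, inner_smul_left, inner_smul_right, hH]
  have hUf : ∀ v, (inner ℂ v (U v)).re = (inner ℂ v (H v)).re - κ * ‖v‖ ^ 2 := by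
    intro v
    simp only [hUdef, sub_apply, smul_apply, ContinuousLinearMap.one_apply, inner_sub_right,
      inner_smul_right, Complex.sub_re, Complex.re_ofReal_mul, nsq_eq_re]
  have hUV : ∀ u v, inner ℂ ((U - K) u) v = inner ℂ u ((U - K) v) := by
    intro u v
    simp [inner_sub_left, inner_sub_right, hU, hK]
  have hUV' : ∀ u v, inner ℂ ((U + K) u) v = inner ℂ u ((U + K) v) := by
    intro u v
    simp [inner_add_left, inner_add_right, hU, hK]
  -- strips on unit vectors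
  have hsb : 0 < Real.sqrt β := Real.sqrt_pos.mpr hβ
  have hsab : 0 < Real.sqrt (a ^ 2 + β) := Real.sqrt_pos.mpr (by positivity)
  have unit : ∀ v : E, ‖v‖ = 1 →
      ((inner ℂ v (U v)).re) ^ 2 / a ^ 2 + ((inner ℂ v (K v)).re) ^ 2 / β ≤ 1 := by
    intro v hv
    have := hE v hv
    rw [hzre, hzim] at this
    rw [hUf, hv]
    simpa using this
  have s1 : ∀ v : E, ‖v‖ = 1 → |(inner ℂ v (U v)).re| ≤ a := by
    intro v hv
    have h0 := unit v hv
    have h1 : 0 ≤ ((inner ℂ v (K v)).re) ^ 2 / β := by positivity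
    have h2 : ((inner ℂ v (U v)).re) ^ 2 / a ^ 2 ≤ 1 := by linarith
    rw [div_le_one (by positivity)] at h2
    exact abs_le_of_sq_le_sq h2 ha.le
  have s2 : ∀ v : E, ‖v‖ = 1 → |(inner ℂ v (K v)).re| ≤ Real.sqrt β := by
    intro v hv
    have h0 := unit v hv
    have h1 : 0 ≤ ((inner ℂ v (U v)).re) ^ 2 / a ^ 2 := by positivity
    have h2 : ((inner ℂ v (K v)).re) ^ 2 / β ≤ 1 := by linarith
    rw [div_le_one hβ] at h2
    exact Real.abs_le_sqrt h2
  have cs : ∀ p r : ℝ, p ^ 2 / a ^ 2 + r ^ 2 / β ≤ 1 → ∀ ε : ℝ, ε ^ 2 = 1 →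
      (p + ε * r) ^ 2 ≤ a ^ 2 + β := by
    intro p r h ε hε
    have hap : 0 < a ^ 2 := by positivity
    set P := p ^ 2 / a ^ 2 with hP
    set R := r ^ 2 / β with hR
    have e1 : p ^ 2 = P * a ^ 2 := by rw [hP]; field_simp
    have e2 : r ^ 2 = R * β := by rw [hR]; field_simp
    have h3 : 2 * (p * (ε * r)) ≤ p ^ 2 * (β / a ^ 2) + r ^ 2 * (a ^ 2 / β) := by
      have h4 : 0 ≤ (p * (β / a ^ 2) - ε * r) ^ 2 * (a ^ 2 / β) := by positivity
      have h5 : (p * (β / a ^ 2) - ε * r) ^ 2 * (a ^ 2 / β) =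
          p ^ 2 * (β / a ^ 2) - 2 * (p * (ε * r)) + ε ^ 2 * r ^ 2 * (a ^ 2 / β) := by
        field_simp
        ring
      rw [h5, hε] at h4
      linarith
    have h6 : p ^ 2 * (β / a ^ 2) = P * β := by rw [hP]; field_simp
    have h7 : r ^ 2 * (a ^ 2 / β) = R * a ^ 2 := by rw [hR]; field_simp
    rw [h6, h7] at h3
    have h8 : (p + ε * r) ^ 2 = p ^ 2 + 2 * (p * (ε * r)) + ε ^ 2 * r ^ 2 := by ring
    rw [h8, hε, e1, e2]
    nlinarith [mul_le_mul_of_nonneg_right h (add_pos hap hβ).le]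
  have s3 : ∀ v : E, ‖v‖ = 1 → |(inner ℂ v ((U - K) v)).re| ≤ Real.sqrt (a ^ 2 + β) := by
    intro v hv
    apply Real.abs_le_sqrt
    have := cs _ _ (unit v hv) (-1) (by norm_num)
    simp only [sub_apply, inner_sub_right, Complex.sub_re]
    linarith
  have s4 : ∀ v : E, ‖v‖ = 1 → |(inner ℂ v ((U + K) v)).re| ≤ Real.sqrt (a ^ 2 + β) := by
    intro v hv
    apply Real.abs_le_sqrt
    have := cs _ _ (unit v hv) 1 (by norm_num)
    simp only [add_apply, inner_add_right, Complex.add_re]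
    linarith
  have h1 : ∀ v, ‖U v‖ ^ 2 ≤ a ^ 2 * ‖v‖ ^ 2 :=
    nsq_le_of_form U hU ha (form_scale U s1)
  have h2 : ∀ v, ‖K v‖ ^ 2 ≤ β * ‖v‖ ^ 2 := by
    intro v
    have := nsq_le_of_form K hK hsb (form_scale K s2) v
    rwa [Real.sq_sqrt hβ.le] at this
  have h3 : ∀ v, ‖(U - K) v‖ ^ 2 ≤ (a ^ 2 + β) * ‖v‖ ^ 2 := by
    intro v
    have := nsq_le_of_form (U - K) hUV hsab (form_scale (U - K) s3) v
    rwa [Real.sq_sqrt (by positivity)] at this
  have h4 : ∀ v, ‖(U + K) v‖ ^ 2 ≤ (a ^ 2 + β) * ‖v‖ ^ 2 := by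
    intro v
    have := nsq_le_of_form (U + K) hUV' hsab (form_scale (U + K) s4) v
    rwa [Real.sq_sqrt (by positivity)] at this
  have h5 : ∀ v, |(inner ℂ v (U v)).re| ≤ a * ‖v‖ ^ 2 := form_scale U s1
  have hκ0 : 0 ≤ κ := he.trans heκ
  apply opNorm_le_of_re
  · have : 0 ≤ a * (2 * κ - e₀) := by
      apply mul_nonneg ha.le; linarith
    have h6 := Real.sqrt_nonneg
      ((κ ^ 2 - 1 + (a ^ 2 - β) / 2 - e₀ ^ 2 / 2 + a * e₀) ^ 2 + (2 * κ - e₀) ^ 2 * β)
    positivity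
  intro x y hx hy
  have core := core_bound U K hU hK (l₀ := κ ^ 2 - 1) ha he heκ h1 h2 h3 h4 h5 x y hx hy
  have hY : U + I • K = A - (κ : ℂ) • 1 := by
    rw [hA, hUdef]; abel
  rw [hY] at core
  have hT : ∀ w, (A * A - 1) w = (A - (κ : ℂ) • 1) ((A - (κ : ℂ) • 1) w)
      + (2 * κ : ℂ) • (A - (κ : ℂ) • 1) w + (((κ ^ 2 - 1 : ℝ)) : ℂ) • w := by
    intro w
    simp only [sub_apply, smul_apply, ContinuousLinearMap.one_apply, map_sub, map_smul,
      ContinuousLinearMap.mul_apply, smul_sub, smul_smul]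
    push_cast
    module
  rw [hT, inner_add_right, inner_add_right, inner_smul_right, inner_smul_right,
    Complex.add_re, Complex.add_re]
  have e1 : ((2 * κ : ℂ) * inner ℂ y ((A - (κ : ℂ) • 1) x)).re =
      2 * κ * (inner ℂ y ((A - (κ : ℂ) • 1) x)).re := by
    have : (2 * κ : ℂ) = ((2 * κ : ℝ) : ℂ) := by push_cast; ring
    rw [this, Complex.re_ofReal_mul]
  rw [e1, Complex.re_ofReal_mul]
  exact core

end Vale.Agent.Lib.P123
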