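import Vale.Agent.Lib.P123.Vec

/-!
The key inequality.  `U`, `V` are symmetric operators whose joint numerical range lies in an
ellipse with semi axes `a` and `√β`; `Y = U + i V`.
-/

namespace Vale.Agent.Lib.P123

open Complex

variable {E : Type*} [NormedAddCommGroup E] [InnerProductSpace ℂ E]

/-- The basic inequality `‖Y x + Y† y‖² ≤ 4 (a² + β) + 2 (a² - β) Re ⟨x, y⟩` for unit vectors,
written with the vectors `U x`, `U y`, `V x`, `V y`. -/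
lemma key_ineq (U V : E →L[ℂ] E) {a β : ℝ} 
    (h1 : ∀ v, ‖U v‖ ^ 2 ≤ a ^ 2 * ‖v‖ ^ 2) (h2 : ∀ v, ‖V v‖ ^ 2 ≤ β * ‖v‖ ^ 2)
    (h3 : ∀ v, ‖(U - V) v‖ ^ 2 ≤ (a ^ 2 + β) * ‖v‖ ^ 2)
    (h4 : ∀ v, ‖(U + V) v‖ ^ 2 ≤ (a ^ 2 + β) * ‖v‖ ^ 2)
    (x y : E) (hx : ‖x‖ = 1) (hy : ‖y‖ = 1) :
    ‖(U x + I • V x) + (U y - I • V y)‖ ^ 2 ≤
      4 * (a ^ 2 + β) + 2 * (a ^ 2 - β) * (inner ℂ x y).re := by
  set α₁ := U x with hα₁
  set α₂ := U y with hα₂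
  set β₁ := V x with hβ₁
  set β₂ := V y with hβ₂
  have s1 := h1 (x + y)
  have s2 := h2 (x - y)
  have s3 := h3 (x + I • y)
  have s4 := h4 (x - I • y)
  have e1 : U (x + y) = α₁ + α₂ := by simp [hα₁, hα₂]
  have e2 : V (x - y) = β₁ - β₂ := by simp [hβ₁, hβ₂]
  have e3 : (U - V) (x + I • y) = (α₁ - β₁) + I • (α₂ - β₂) := by
    simp only [sub_apply, map_add, map_smul, hα₁, hα₂, hβ₁, hβ₂, smul_sub]
  have e4 : (U + V) (x - I • y) = (α₁ + β₁) - I • (α₂ + β₂) := by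
    simp only [add_apply, map_sub, map_smul, hα₁, hα₂, hβ₁, hβ₂, smul_add]
  rw [e1, nsq_add, nsq_add x y, hx, hy] at s1
  rw [e2, nsq_sub, nsq_sub x y, hx, hy] at s2
  rw [e3, nsq_add_I, nsq_add_I x y, hx, hy, nsq_sub α₁ β₁, nsq_sub α₂ β₂] at s3
  rw [e4, nsq_sub_I, nsq_sub_I x y, hx, hy, nsq_add α₁ β₁, nsq_add α₂ β₂] at s4
  have i3 : (inner ℂ (α₁ - β₁) (α₂ - β₂)).im =
      (inner ℂ α₁ α₂).im - (inner ℂ α₁ β₂).im - (inner ℂ β₁ α₂).im + (inner ℂ β₁ β₂).im := by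
    simp only [inner_sub_left, inner_sub_right, Complex.sub_im]; ring
  have i4 : (inner ℂ (α₁ + β₁) (α₂ + β₂)).im =
      (inner ℂ α₁ α₂).im + (inner ℂ α₁ β₂).im + (inner ℂ β₁ α₂).im + (inner ℂ β₁ β₂).im := by
    simp only [inner_add_left, inner_add_right, Complex.add_im]; ring
  rw [i3] at s3
  rw [i4] at s4
  -- the norm to bound
  have e5 : (α₁ + I • β₁) + (α₂ - I • β₂) = (α₁ + α₂) + I • (β₁ - β₂) := by
    simp only [smul_sub]; abel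
  rw [e5, nsq_add_I, nsq_add, nsq_sub β₁ β₂]
  have i5 : (inner ℂ (α₁ + α₂) (β₁ - β₂)).im =
      (inner ℂ α₁ β₁).im - (inner ℂ α₁ β₂).im + (inner ℂ α₂ β₁).im - (inner ℂ α₂ β₂).im := by
    simp only [inner_add_left, inner_sub_right, Complex.add_im, Complex.sub_im]; ring
  rw [i5]
  have r1 := sq_nonneg ‖α₂ + I • β₂‖
  have r2 := sq_nonneg ‖α₁ - I • β₁‖
  rw [nsq_add_I] at r1
  rw [nsq_sub_I] at r2
  have c1 := im_inner_comm α₂ β₁
  have c2 : (1:ℝ) ^ 2 = 1 := one_pow 2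
  nlinarith [s1, s2, s3, s4, r1, r2, c1]

/-- The full bound. -/
lemma core_bound (U V : E →L[ℂ] E) (hU : ∀ u v, inner ℂ (U u) v = inner ℂ u (U v))
    (hV : ∀ u v, inner ℂ (V u) v = inner ℂ u (V v))
    {a β e₀ κ l₀ : ℝ} (ha : 0 < a) (he : 0 ≤ e₀) (heκ : e₀ ≤ κ)
    (h1 : ∀ v, ‖U v‖ ^ 2 ≤ a ^ 2 * ‖v‖ ^ 2) (h2 : ∀ v, ‖V v‖ ^ 2 ≤ β * ‖v‖ ^ 2)
    (h3 : ∀ v, ‖(U - V) v‖ ^ 2 ≤ (a ^ 2 + β) * ‖v‖ ^ 2)
    (h4 : ∀ v, ‖(U + V) v‖ ^ 2 ≤ (a ^ 2 + β) * ‖v‖ ^ 2)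
    (h5 : ∀ v, |(inner ℂ v (U v)).re| ≤ a * ‖v‖ ^ 2)
    (x y : E) (hx : ‖x‖ = 1) (hy : ‖y‖ = 1) :
    (inner ℂ y ((U + I • V) ((U + I • V) x))).re + 2 * κ * (inner ℂ y ((U + I • V) x)).re
        + l₀ * (inner ℂ y x).re ≤
      a * (2 * κ - e₀) +
        Real.sqrt ((l₀ + (a ^ 2 - β) / 2 - e₀ ^ 2 / 2 + a * e₀) ^ 2 + (2 * κ - e₀) ^ 2 * β)
        + a ^ 2 + β + e₀ ^ 2 / 2 := by
  set α₁ := U x with hα₁
  set α₂ := U y with hα₂
  set β₁ := V x with hβ₁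
  set β₂ := V y with hβ₂
  set p : E := α₁ + I • β₁ with hp
  set q : E := α₂ - I • β₂ with hq
  set μ : ℝ := 2 * κ - e₀ with hμ
  set Λ : ℝ := l₀ + (a ^ 2 - β) / 2 - e₀ ^ 2 / 2 + a * e₀ with hΛ
  have hYx : (U + I • V) x = p := by simp [hp, hα₁, hβ₁]
  -- adjoint formula
  have hadj : ∀ w, inner ℂ y ((U + I • V) w) = inner ℂ q w := by
    intro w
    simp only [add_apply, smul_apply, inner_add_right,
      inner_smul_right, hq, inner_sub_left, inner_smul_left, hα₂, hβ₂, hU, hV]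
    simp
  rw [hYx, hadj p]
  have hyp : inner ℂ y p = inner ℂ q x := by rw [← hYx, hadj x]
  set g : ℝ := (inner ℂ y x).re with hg
  have hgc : (inner ℂ x y).re = g := by rw [hg, re_inner_comm]
  set G : ℝ := (inner ℂ y p).re with hG
  -- key inequality
  have ki := key_ineq U V h1 h2 h3 h4 x y hx hy
  rw [← hα₁, ← hα₂, ← hβ₁, ← hβ₂, ← hp, ← hq, hgc] at ki
  -- tangent inequality
  set e₀c : ℂ := (e₀ : ℂ) with he₀c
  have tan := sq_nonneg ‖(p - q) - e₀c • (y - x)‖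
  rw [nsq_sub, norm_smul] at tan
  have hnyx : ‖y - x‖ ^ 2 = 2 - 2 * g := by
    rw [nsq_sub, hx, hy]; ring
  have hnorm : ‖e₀c‖ = e₀ := by
    simp [he₀c, abs_of_nonneg he]
  have hinner : (inner ℂ (p - q) (e₀c • (y - x))).re = e₀ * (inner ℂ (p - q) (y - x)).re := by
    rw [inner_smul_right, he₀c, Complex.re_ofReal_mul]
  rw [hinner, hnorm, mul_pow, hnyx] at tan
  -- diagonal terms
  set d₁ : ℝ := (inner ℂ x α₁).re with hd₁
  set d₂ : ℝ := (inner ℂ y α₂).re with hd₂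
  have hVx : (inner ℂ x β₁).im = 0 := im_form_eq_zero V hV x
  have hVy : (inner ℂ y β₂).im = 0 := im_form_eq_zero V hV y
  have hpx : (inner ℂ p x).re = d₁ := by
    rw [re_inner_comm, hp, inner_add_right, Complex.add_re, re_inner_I_right, hVx]; simp [hd₁]
  have hqy : (inner ℂ q y).re = d₂ := by
    rw [re_inner_comm, hq, inner_sub_right, Complex.sub_re, re_inner_I_right, hVy]; simp [hd₂]
  have hqx : (inner ℂ q x).re = G := by rw [← hyp]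
  have hpy : (inner ℂ p y).re = G := by rw [re_inner_comm]
  have hinner2 : (inner ℂ (p - q) (y - x)).re = 2 * G - d₁ - d₂ := by
    simp only [inner_sub_left, inner_sub_right, Complex.sub_re]
    rw [hpy, hpx, hqy, hqx]; ring
  rw [hinner2] at tan
  -- real part of ⟨q, p⟩
  have hqp : (inner ℂ q p).re = (‖p + q‖ ^ 2 - ‖p - q‖ ^ 2) / 4 := by
    rw [nsq_add p q, nsq_sub p q, re_inner_comm p q]; ring
  rw [hqp]
  -- the U part
  set g₁ : ℝ := (inner ℂ y α₁).re with hg₁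
  set h₀ : ℝ := (inner ℂ y (I • β₁)).re with hh₀
  have hGdec : G = g₁ + h₀ := by
    rw [hG, hp, inner_add_right, Complex.add_re]
  have hxy : (inner ℂ x α₂).re = g₁ := by
    rw [hg₁, hα₁, hα₂, ← hU x y, re_inner_comm]
  have u1 := (abs_le.mp (h5 (x + y))).2
  have u2 := (abs_le.mp (h5 (x - y))).1
  have u1e : (inner ℂ (x + y) (U (x + y))).re = d₁ + d₂ + 2 * g₁ := by
    simp only [map_add, inner_add_left, inner_add_right, Complex.add_re, ← hα₁, ← hα₂]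
    rw [hxy]; ring
  have u2e : (inner ℂ (x - y) (U (x - y))).re = d₁ + d₂ - 2 * g₁ := by
    simp only [map_sub, inner_sub_left, inner_sub_right, Complex.sub_re, ← hα₁, ← hα₂]
    rw [hxy]; ring
  rw [u1e, nsq_add, hx, hy, hgc] at u1
  rw [u2e, nsq_sub, hx, hy, hgc] at u2
  have hμe : 0 ≤ μ - e₀ := by rw [hμ]; linarith
  have hμe' : 0 ≤ μ + e₀ := by rw [hμ]; linarith
  have v1 := mul_le_mul_of_nonneg_left u1 hμe'
  have v2 : (μ - e₀) * (-(d₁ + d₂ - 2 * g₁)) ≤ (μ - e₀) * (a * (1 ^ 2 + 1 ^ 2 - 2 * g)) := by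
    apply mul_le_mul_of_nonneg_left _ hμe
    linarith
  -- the remaining vector
  set w : E := (Λ : ℂ) • x + (μ : ℂ) • (I • β₁) with hw
  have hwre : (inner ℂ y w).re = Λ * g + μ * h₀ := by
    rw [hw, inner_add_right, inner_smul_right, inner_smul_right, Complex.add_re,
      Complex.re_ofReal_mul, Complex.re_ofReal_mul]
  have hwn : ‖w‖ ^ 2 ≤ Λ ^ 2 + μ ^ 2 * β := by
    rw [hw, nsq_add, norm_smul, norm_smul, norm_smul, inner_smul_left, inner_smul_right,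
      inner_smul_right]
    have hb := h2 x
    rw [hx, ← hβ₁] at hb
    have ht : ((starRingEnd ℂ) (Λ : ℂ) * ((μ : ℂ) * (I * inner ℂ x β₁))).re = 0 := by
      have hc : inner ℂ x β₁ = (((inner ℂ x β₁).re : ℝ) : ℂ) := by
        apply Complex.ext <;> simp [hVx]
      rw [hc]
      simp
    rw [ht]
    simp only [Complex.norm_real, Complex.norm_I, hx, Real.norm_eq_abs, one_mul, mul_one, mul_pow,
      sq_abs]
    have := mul_le_mul_of_nonneg_left hb (sq_nonneg μ)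
    linarith
  have hwle : (inner ℂ y w).re ≤ Real.sqrt (Λ ^ 2 + μ ^ 2 * β) := by
    have h6 : (inner ℂ y w).re ≤ ‖inner ℂ y w‖ := Complex.re_le_norm _
    have h7 : ‖inner ℂ y w‖ ≤ ‖y‖ * ‖w‖ := norm_inner_le_norm _ _
    rw [hy, one_mul] at h7
    have h8 : ‖w‖ ≤ Real.sqrt (Λ ^ 2 + μ ^ 2 * β) := Real.le_sqrt_of_sq_le hwn
    linarith
  rw [hwre] at hwle
  have hq' : G = g₁ + h₀ := hGdec
  have hκ : 2 * κ = μ + e₀ := by rw [hμ]; ring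
  have hΛ' : Λ = l₀ + (a ^ 2 - β) / 2 - e₀ ^ 2 / 2 + a * e₀ := hΛ
  -- assemble
  have hfinal : (‖p + q‖ ^ 2 - ‖p - q‖ ^ 2) / 4 + 2 * κ * G + l₀ * g ≤
      a * μ + (Λ * g + μ * h₀) + a ^ 2 + β + e₀ ^ 2 / 2 := by
    rw [hκ, hq', hΛ']
    rw [hq'] at tan
    linear_combination (1 / 4) * ki + (1 / 4) * tan + (1 / 4) * v1 + (1 / 4) * v2
  linarith

end Vale.Agent.Lib.P123
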