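import Mathlib

/-!
Real algebra for the family of ellipses in the quadratic Crouzeix inequality.
-/

namespace Vale.Agent.Lib.P123

/-- A nonnegative polynomial on `[0, 9/10]`. -/
lemma Q_nonneg {t : ℝ} (h0 : 0 ≤ t) (h1 : t ≤ 9 / 10) :
    0 ≤ 3 + (-2)*t + (14)*t^2 + (-5)*t^3 + (83/4)*t^4 + (-14)*t^5 + (9)*t^6 + (-22)*t^7
      + (-5/2)*t^8 + (-12)*t^9 + (-1)*t^10 + (-1)*t^11 + (3/4)*t^12 := by
  obtain ⟨w, hw⟩ : ∃ w : ℝ, w = 9 / 10 - t := ⟨_, rfl⟩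
  have hw0 : 0 ≤ w := by rw [hw]; linarith
  have ht : t = 9 / 10 - w := by rw [hw]; ring
  have e : 3 + (-2)*t + (14)*t^2 + (-5)*t^3 + (83/4)*t^4 + (-14)*t^5 + (9)*t^6 + (-22)*t^7
      + (-5/2)*t^8 + (-12)*t^9 + (-1)*t^10 + (-1)*t^11 + (3/4)*t^12 =
      (1000000000000/94143178827)*w^12+(3800000000000/31381059609)*t^1*w^11+(260000000000/387420489)*t^2*w^10+(223585000000000/94143178827)*t^3*w^9+(62189225000000/10460353203)*t^4*w^8+(38422540000000/3486784401)*t^5*w^7+(482636561000000/31381059609)*t^6*w^6+(168509978600000/10460353203)*t^7*w^5+(43146059975000/3486784401)*t^8*w^4+(624049481344000/94143178827)*t^9*w^3+(70159603645100/31381059609)*t^10*w^2+(1292120466910/3486784401)*t^11*w^1+(3102361897561/376572715308)*t^12 := by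
    rw [hw]; ring
  rw [e]
  positivity

/-- The key real inequality for the family of ellipses. -/
lemma family_real {t : ℝ} (ht0 : 0 < t) (ht : t ≤ 9 / 10) (D1 D2 p q β : ℝ)
    (hD1 : D1 = 1 + t ^ 2) (hD2 : D2 = 1 + t + t ^ 2) (hp : p = t / D1) (hq : q = t ^ 2 / D1)
    (hβ : β = t ^ 2 * (1 + t) / (D1 * D2)) :
    (-q / 2 - β / 2 + 2 * p ^ 2 * q) ^ 2 + 4 * (1 / D1) * (1 - p) ^ 2 * β ≤
      (2 * p - q - β + 2 * p ^ 2 * q) ^ 2 ∧ 0 ≤ 2 * p - q - β + 2 * p ^ 2 * q := by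
  have hD1p : 0 < D1 := by rw [hD1]; positivity
  have hD2p : 0 < D2 := by rw [hD2]; positivity
  have hQ := Q_nonneg ht0.le ht
  constructor
  · have e : (2 * p - q - β + 2 * p ^ 2 * q) ^ 2 -
        ((-q / 2 - β / 2 + 2 * p ^ 2 * q) ^ 2 + 4 * (1 / D1) * (1 - p) ^ 2 * β) =
        t ^ 4 * (3 + (-2)*t + (14)*t^2 + (-5)*t^3 + (83/4)*t^4 + (-14)*t^5 + (9)*t^6 + (-22)*t^7
      + (-5/2)*t^8 + (-12)*t^9 + (-1)*t^10 + (-1)*t^11 + (3/4)*t^12) / (D1 ^ 6 * D2 ^ 2) := by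
      rw [hp, hq, hβ]
      have hD1' : D1 ≠ 0 := hD1p.ne'
      have hD2' : D2 ≠ 0 := hD2p.ne'
      field_simp
      rw [hD1, hD2]
      ring
    have : 0 ≤ t ^ 4 * (3 + (-2)*t + (14)*t^2 + (-5)*t^3 + (83/4)*t^4 + (-14)*t^5 + (9)*t^6 + (-22)*t^7
      + (-5/2)*t^8 + (-12)*t^9 + (-1)*t^10 + (-1)*t^11 + (3/4)*t^12) / (D1 ^ 6 * D2 ^ 2) := by
      apply div_nonneg (mul_nonneg (by positivity) hQ) (by positivity)
    linarith
  · have e : 2 * p - q - β + 2 * p ^ 2 * q =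
        (2 * t + 4 * t ^ 3 + t ^ 4 * (1 - t ^ 4) + 4 * t ^ 5) / (D1 ^ 3 * D2) := by
      rw [hp, hq, hβ]
      have hD1' : D1 ≠ 0 := hD1p.ne'
      have hD2' : D2 ≠ 0 := hD2p.ne'
      field_simp
      rw [hD1, hD2]
      ring
    rw [e]
    have h4 : t ^ 4 ≤ 1 := pow_le_one₀ ht0.le (by linarith)
    have : 0 ≤ 1 - t ^ 4 := by linarith
    positivity

/-- Containment of the region `|z² - 1| ≤ m`, `Re z > 0`, in an ellipse of the family. -/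
lemma family_contain {C S β m q x y : ℝ} (hC2 : C ^ 2 = 1 - q) (hS2 : S ^ 2 = q)
    (hSC : 2 * S * C = m) (hS : 0 < S) (hlt : S < C) (hβ0 : 0 < β) (hA : 0 ≤ q - β)
    (h4 : 4 * β - m ^ 2 = 2 * m * (q - β)) (hm : 0 ≤ m) (hx : 0 < x)
    (h : (x ^ 2 - y ^ 2 - 1) ^ 2 + (2 * x * y) ^ 2 ≤ m ^ 2) :
    (x - C) ^ 2 / S ^ 2 + y ^ 2 / β ≤ 1 := by
  have hSp : 0 < S ^ 2 := by positivity
  set τ : ℝ := (x - C) / S with hτ
  have hxτ : x = C + S * τ := by rw [hτ]; field_simp; ring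
  -- bounds on `x²`
  have hx21 : (x ^ 2 - 1) ^ 2 ≤ m ^ 2 := by
    nlinarith [sq_nonneg y, sq_nonneg x, mul_nonneg (sq_nonneg y) (sq_nonneg x),
      sq_nonneg (y ^ 2)]
  have hup : x ^ 2 ≤ 1 + m := by nlinarith [abs_le_of_sq_le_sq hx21 hm, (abs_le.mp (abs_le_of_sq_le_sq hx21 hm)).2]
  have hlo : 1 - m ≤ x ^ 2 := by nlinarith [(abs_le.mp (abs_le_of_sq_le_sq hx21 hm)).1]
  have hCp : 0 < C := by linarith
  have h1 : x ≤ C + S := by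
    by_contra hc
    push Not at hc
    nlinarith
  have h2 : C - S ≤ x := by
    by_contra hc
    push Not at hc
    nlinarith
  have hτ1 : τ ≤ 1 := by
    rw [hτ, div_le_one hS]; linarith
  have hτ2 : -1 ≤ τ := by
    rw [hτ, le_div_iff₀ hS]; linarith
  have hν : 0 ≤ 1 - τ ^ 2 := by nlinarith
  have hx2 : x ^ 2 = (1 - q) + m * τ + q * τ ^ 2 := by
    rw [hxτ, ← hSC]
    have e : (C + S * τ) ^ 2 = C ^ 2 + 2 * S * C * τ + S ^ 2 * τ ^ 2 := by ring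
    rw [e, hC2, hS2]
  set Y₀ := β * (1 - τ ^ 2) with hY₀
  have hY₀0 : 0 ≤ Y₀ := by positivity
  have hF : m ^ 2 ≤ (x ^ 2 + Y₀) ^ 2 - 2 * x ^ 2 + 2 * Y₀ + 1 := by
    have e : (x ^ 2 + Y₀) ^ 2 - 2 * x ^ 2 + 2 * Y₀ + 1 - m ^ 2 =
        (1 - τ ^ 2) * ((q - β) ^ 2 * (1 - τ ^ 2) + 2 * m * (q - β) * (1 - τ)) := by
      rw [hx2, hY₀]
      linear_combination (1 - τ ^ 2) * h4
    have : 0 ≤ (1 - τ ^ 2) * ((q - β) ^ 2 * (1 - τ ^ 2) + 2 * m * (q - β) * (1 - τ)) := by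
      have : 0 ≤ 1 - τ := by linarith
      positivity
    linarith
  have hy : y ^ 2 ≤ Y₀ := by
    by_contra hc
    push Not at hc
    have hF' : (x ^ 2 + y ^ 2) ^ 2 - 2 * x ^ 2 + 2 * y ^ 2 + 1 ≤ m ^ 2 := by
      have e : (x ^ 2 + y ^ 2) ^ 2 - 2 * x ^ 2 + 2 * y ^ 2 + 1 =
          (x ^ 2 - y ^ 2 - 1) ^ 2 + (2 * x * y) ^ 2 := by ring
      rw [e]; exact h
    have hpos : 0 < (y ^ 2 - Y₀) * (y ^ 2 + Y₀ + 2 * x ^ 2 + 2) := by
      apply mul_pos (by linarith)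
      positivity
    have e : (y ^ 2 - Y₀) * (y ^ 2 + Y₀ + 2 * x ^ 2 + 2) =
        ((x ^ 2 + y ^ 2) ^ 2 - 2 * x ^ 2 + 2 * y ^ 2 + 1)
          - ((x ^ 2 + Y₀) ^ 2 - 2 * x ^ 2 + 2 * Y₀ + 1) := by ring
    linarith
  have e1 : (x - C) ^ 2 / S ^ 2 = τ ^ 2 := by rw [hτ, div_pow]
  have e2 : y ^ 2 / β ≤ 1 - τ ^ 2 := by
    rw [div_le_iff₀ hβ0]; linarith
  rw [e1]; linarith

/-- Containment of the right lobe of the lemniscate in a fixed ellipse. -/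
lemma fixed_contain {x y : ℝ} (hx : 0 < x)
    (h : (x ^ 2 - y ^ 2 - 1) ^ 2 + (2 * x * y) ^ 2 ≤ 1) :
    (x - 5 / 7) ^ 2 / (5 / 7) ^ 2 + y ^ 2 / (3 / 10) ≤ 1 := by
  have hx21 : (x ^ 2 - 1) ^ 2 ≤ 1 := by
    nlinarith [sq_nonneg y, sq_nonneg x, mul_nonneg (sq_nonneg y) (sq_nonneg x),
      sq_nonneg (y ^ 2)]
  have hup : x ^ 2 ≤ 2 := by nlinarith [sq_nonneg (x ^ 2 - 1)]
  have h1 : x ≤ 10 / 7 := by
    by_contra hc
    push Not at hc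
    nlinarith
  set Y₀ : ℝ := (147 / 250) * x * (10 / 7 - x) with hY₀
  have hY₀0 : 0 ≤ Y₀ := by
    have : 0 ≤ 10 / 7 - x := by linarith
    positivity
  have hF : 1 ≤ (x ^ 2 + Y₀) ^ 2 - 2 * x ^ 2 + 2 * Y₀ + 1 := by
    have e : (x ^ 2 + Y₀) ^ 2 - 2 * x ^ 2 + 2 * Y₀ =
        x * ((x - 123 / 100) ^ 2 * ((10609 / 62500) * x + (693600000 / 625000000 - 693600000 / 625000000 + 2 * (123 / 100) * (10609 / 62500) + 4326 / 6250))
          + (-(1544 / 625) - (10609 / 62500) * (123 / 100) ^ 2 + 2 * (123 / 100) * (2 * (123 / 100) * (10609 / 62500) + 4326 / 6250)) * x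
          + (42 / 25 - (123 / 100) ^ 2 * (2 * (123 / 100) * (10609 / 62500) + 4326 / 6250))) := by
      rw [hY₀]; ring
    have hpos : 0 ≤ x * ((x - 123 / 100) ^ 2 * ((10609 / 62500) * x + (693600000 / 625000000 - 693600000 / 625000000 + 2 * (123 / 100) * (10609 / 62500) + 4326 / 6250))
          + (-(1544 / 625) - (10609 / 62500) * (123 / 100) ^ 2 + 2 * (123 / 100) * (2 * (123 / 100) * (10609 / 62500) + 4326 / 6250)) * x
          + (42 / 25 - (123 / 100) ^ 2 * (2 * (123 / 100) * (10609 / 62500) + 4326 / 6250))) := by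
      apply mul_nonneg hx.le
      have c1 : (0:ℝ) ≤ -(1544 / 625) - (10609 / 62500) * (123 / 100) ^ 2 + 2 * (123 / 100) * (2 * (123 / 100) * (10609 / 62500) + 4326 / 6250) := by norm_num
      have c2 : (0:ℝ) ≤ 42 / 25 - (123 / 100) ^ 2 * (2 * (123 / 100) * (10609 / 62500) + 4326 / 6250) := by norm_num
      have c3 : (0:ℝ) ≤ (10609 / 62500) * x + (693600000 / 625000000 - 693600000 / 625000000 + 2 * (123 / 100) * (10609 / 62500) + 4326 / 6250) := by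
        have : (0:ℝ) ≤ 693600000 / 625000000 - 693600000 / 625000000 + 2 * (123 / 100) * (10609 / 62500) + 4326 / 6250 := by norm_num
        positivity
      have c4 := mul_nonneg (sq_nonneg (x - 123 / 100)) c3
      have c5 := mul_nonneg c1 hx.le
      linarith
    linarith
  have hy : y ^ 2 ≤ Y₀ := by
    by_contra hc
    push Not at hc
    have hF' : (x ^ 2 + y ^ 2) ^ 2 - 2 * x ^ 2 + 2 * y ^ 2 + 1 ≤ 1 := by
      have e : (x ^ 2 + y ^ 2) ^ 2 - 2 * x ^ 2 + 2 * y ^ 2 + 1 =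
          (x ^ 2 - y ^ 2 - 1) ^ 2 + (2 * x * y) ^ 2 := by ring
      rw [e]; exact h
    have hpos : 0 < (y ^ 2 - Y₀) * (y ^ 2 + Y₀ + 2 * x ^ 2 + 2) := by
      apply mul_pos (by linarith)
      positivity
    have e : (y ^ 2 - Y₀) * (y ^ 2 + Y₀ + 2 * x ^ 2 + 2) =
        ((x ^ 2 + y ^ 2) ^ 2 - 2 * x ^ 2 + 2 * y ^ 2 + 1)
          - ((x ^ 2 + Y₀) ^ 2 - 2 * x ^ 2 + 2 * Y₀ + 1) := by ring
    linarith
  have e2 : y ^ 2 / (3 / 10) ≤ Y₀ / (3 / 10) :=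
    div_le_div_of_nonneg_right hy (by norm_num)
  have e3 : (x - 5 / 7) ^ 2 / (5 / 7) ^ 2 + Y₀ / (3 / 10) = 1 := by
    rw [hY₀]; ring
  linarith

/-- The numerical bound for the fixed ellipse. -/
lemma fixed_real :
    (5 / 7 : ℝ) * (2 * (5 / 7) - 5 / 7) +
      Real.sqrt (((5 / 7 : ℝ) ^ 2 - 1 + ((5 / 7) ^ 2 - 3 / 10) / 2 - (5 / 7) ^ 2 / 2
        + 5 / 7 * (5 / 7)) ^ 2 + (2 * (5 / 7) - 5 / 7) ^ 2 * (3 / 10))
      + (5 / 7) ^ 2 + 3 / 10 + (5 / 7) ^ 2 / 2 ≤ 2 * (18 / 181 * 10) := by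
  have h : Real.sqrt (((5 / 7 : ℝ) ^ 2 - 1 + ((5 / 7) ^ 2 - 3 / 10) / 2 - (5 / 7) ^ 2 / 2
        + 5 / 7 * (5 / 7)) ^ 2 + (2 * (5 / 7) - 5 / 7) ^ 2 * (3 / 10)) ≤ 4122 / 10000 := by
    apply Real.sqrt_le_iff.mpr
    constructor <;> norm_num
  norm_num at h ⊢
  linarith

end Vale.Agent.Lib.P123
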