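import Vale.Agent.Lib.P123.Three
import Vale.Agent.Lib.P123.Family

/-!
The case `m < 1` of the quadratic Crouzeix inequality: the numerical range lies in one lobe of
the lemniscate.
-/

namespace Vale.Agent.Lib.P123

open Complex

variable {E : Type*} [NormedAddCommGroup E] [InnerProductSpace ℂ E]

/-- Real form of the hypothesis. -/
lemma real_form (A : E →L[ℂ] E) {m : ℝ} (hm : 0 ≤ m) {v : E}
    (h : ‖(inner ℂ v (A v)) ^ 2 - 1‖ ≤ m) :
    ((inner ℂ v (A v)).re ^ 2 - (inner ℂ v (A v)).im ^ 2 - 1) ^ 2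
      + (2 * (inner ℂ v (A v)).re * (inner ℂ v (A v)).im) ^ 2 ≤ m ^ 2 := by
  rw [← sq_norm_sq_sub_one]
  exact pow_le_pow_left₀ (norm_nonneg _) h 2

/-- The parametrization of `m`. -/
lemma exists_param {m : ℝ} (hm0 : 0 < m) (hm1 : m ≤ 18 / 181 * 10) :
    ∃ t : ℝ, 0 < t ∧ t ≤ 9 / 10 ∧ m = 2 * t / (1 + t ^ 2) := by
  have hm11 : m < 1 := by linarith [show (18:ℝ) / 181 * 10 < 1 by norm_num]
  obtain ⟨e, he⟩ : ∃ e : ℝ, e = Real.sqrt (1 - m ^ 2) := ⟨_, rfl⟩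
  have he2 : e ^ 2 = 1 - m ^ 2 := by rw [he]; exact Real.sq_sqrt (by nlinarith)
  have he0 : 0 ≤ e := by rw [he]; exact Real.sqrt_nonneg _
  have he1 : 19 / 181 ≤ e := by
    rw [he]
    apply Real.le_sqrt_of_sq_le
    have : m ^ 2 ≤ (18 / 181 * 10) ^ 2 := pow_le_pow_left₀ hm0.le hm1 2
    nlinarith
  have h1e : 0 < 1 + e := by positivity
  refine ⟨m / (1 + e), by positivity, ?_, ?_⟩
  · rw [div_le_iff₀ h1e]
    nlinarith
  · have hD : 1 + (m / (1 + e)) ^ 2 = 2 / (1 + e) := by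
      rw [div_pow]
      field_simp
      nlinarith
    rw [hD]
    field_simp

/-- The algebra of the family of ellipses, with `C² = 1 / D1`, `S = t C`. -/
lemma family_bound_real {t : ℝ} (ht0 : 0 < t) (ht : t ≤ 9 / 10) {C D1 D2 p q β m u S : ℝ}
    (hD1 : D1 = 1 + t ^ 2) (hD2 : D2 = 1 + t + t ^ 2) (hp : p = t / D1) (hq : q = t ^ 2 / D1)
    (hβ : β = t ^ 2 * (1 + t) / (D1 * D2)) (hu : u = 1 / D1) (hC2 : C ^ 2 = u)
    (hS : S = t * C) (hm2p : m = 2 * p) (huq : u = 1 - q) (hS2 : S ^ 2 = q) :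
    S * (2 * C - m * C) +
        Real.sqrt ((C ^ 2 - 1 + (S ^ 2 - β) / 2 - (m * C) ^ 2 / 2 + S * (m * C)) ^ 2
          + (2 * C - m * C) ^ 2 * β)
        + S ^ 2 + β + (m * C) ^ 2 / 2 ≤ 2 * m := by
  obtain ⟨hreal, hR⟩ := family_real ht0 ht D1 D2 p q β hD1 hD2 hp hq hβ
  have htu : t * u = p := by rw [hu, hp]; ring
  have e1 : S * (2 * C - m * C) = 2 * p * (1 - p) := by
    have : S * (2 * C - m * C) = t * C ^ 2 * (2 - m) := by rw [hS]; ring
    rw [this, hC2, hm2p, htu]; ring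
  have hae : S * (m * C) = 2 * p ^ 2 := by
    have : S * (m * C) = t * C ^ 2 * m := by rw [hS]; ring
    rw [this, hC2, hm2p, htu]; ring
  have he2' : (m * C) ^ 2 = 4 * p ^ 2 * u := by
    rw [mul_pow, hC2, hm2p]; ring
  have e2 : (C ^ 2 - 1 + (S ^ 2 - β) / 2 - (m * C) ^ 2 / 2 + S * (m * C)) =
      -q / 2 - β / 2 + 2 * p ^ 2 * q := by
    rw [hC2, hS2, hae, he2', huq]; ring
  have e3 : (2 * C - m * C) ^ 2 * β = 4 * (1 / D1) * (1 - p) ^ 2 * β := by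
    have : (2 * C - m * C) ^ 2 = C ^ 2 * (2 - m) ^ 2 := by ring
    rw [this, hC2, hm2p, hu]; ring
  rw [e1, e2, e3, hS2, he2']
  have hsq : Real.sqrt ((-q / 2 - β / 2 + 2 * p ^ 2 * q) ^ 2 + 4 * (1 / D1) * (1 - p) ^ 2 * β) ≤
      2 * p - q - β + 2 * p ^ 2 * q := Real.sqrt_le_iff.mpr ⟨hR, hreal⟩
  rw [hm2p, huq]
  nlinarith

/-- The lobe case, right half plane, with the parameter `t`. -/
lemma lobe_family_t [CompleteSpace E] (A : E →L[ℂ] E) {m t : ℝ} (ht0 : 0 < t) (htle : t ≤ 9 / 10)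
    (hmt' : m = 2 * t / (1 + t ^ 2))
    (h : ∀ v : E, ‖v‖ = 1 → ‖(inner ℂ v (A v)) ^ 2 - 1‖ ≤ m)
    (hpos : ∀ v : E, ‖v‖ = 1 → 0 < (inner ℂ v (A v)).re) : ‖A * A - 1‖ ≤ 2 * m := by
  obtain ⟨D1, hD1⟩ : ∃ D1 : ℝ, D1 = 1 + t ^ 2 := ⟨_, rfl⟩
  obtain ⟨D2, hD2⟩ : ∃ D2 : ℝ, D2 = 1 + t + t ^ 2 := ⟨_, rfl⟩
  have hD1p : 0 < D1 := by rw [hD1]; positivity
  have hD2p : 0 < D2 := by rw [hD2]; positivity
  have hmt : m = 2 * t / D1 := by rw [hmt', hD1]
  have hm0 : 0 < m := by rw [hmt]; positivity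
  have hm1 : m ≤ 1 := by
    rw [hmt, div_le_one hD1p, hD1]
    nlinarith [sq_nonneg (1 - t)]
  obtain ⟨p, hp⟩ : ∃ p : ℝ, p = t / D1 := ⟨_, rfl⟩
  obtain ⟨q, hq⟩ : ∃ q : ℝ, q = t ^ 2 / D1 := ⟨_, rfl⟩
  obtain ⟨β, hβ⟩ : ∃ β : ℝ, β = t ^ 2 * (1 + t) / (D1 * D2) := ⟨_, rfl⟩
  have hm2p : m = 2 * p := by rw [hmt, hp]; ring
  obtain ⟨u, hu⟩ : ∃ u : ℝ, u = 1 / D1 := ⟨_, rfl⟩
  obtain ⟨C, hC⟩ : ∃ C : ℝ, C = Real.sqrt u := ⟨_, rfl⟩
  have hup : 0 < u := by rw [hu]; positivity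
  have hC0 : 0 < C := by rw [hC]; exact Real.sqrt_pos.mpr hup
  have hC2 : C ^ 2 = u := by rw [hC]; exact Real.sq_sqrt hup.le
  obtain ⟨S, hS⟩ : ∃ S : ℝ, S = t * C := ⟨_, rfl⟩
  have hS0 : 0 < S := by rw [hS]; positivity
  have huq : u = 1 - q := by
    rw [hu, hq]; field_simp; rw [hD1]; ring
  have hS2 : S ^ 2 = q := by
    rw [hS, mul_pow, hC2, hu, hq]; ring
  have hSC : 2 * S * C = m := by
    have : 2 * S * C = 2 * t * C ^ 2 := by rw [hS]; ring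
    rw [this, hC2, hu, hmt]; ring
  have hlt : S < C := by
    rw [hS]; nlinarith
  have hβ0 : 0 < β := by rw [hβ]; positivity
  have hA : 0 ≤ q - β := by
    have : q - β = t ^ 4 / (D1 * D2) := by
      rw [hq, hβ]; field_simp; rw [hD2]; ring
    rw [this]; positivity
  have h4 : 4 * β - m ^ 2 = 2 * m * (q - β) := by
    rw [hmt, hq, hβ]
    field_simp
    rw [hD1, hD2]
    ring
  have hE : ∀ v : E, ‖v‖ = 1 →
      ((inner ℂ v (A v)).re - C) ^ 2 / S ^ 2 + (inner ℂ v (A v)).im ^ 2 / β ≤ 1 := by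
    intro v hv
    exact family_contain (by rw [hC2, huq]) hS2 hSC hS0 hlt hβ0 hA h4 hm0.le (hpos v hv)
      (real_form A hm0.le (h v hv))
  have hbound := ellipse_bound A (κ := C) (a := S) (β := β) (e₀ := m * C) hS0 hβ0 (by positivity)
    (by nlinarith) hE
  exact hbound.trans (family_bound_real ht0 htle hD1 hD2 hp hq hβ hu hC2 hS hm2p huq hS2)

/-- The lobe case, right half plane, `m` at most `1.8/1.81`. -/
lemma lobe_family [CompleteSpace E] (A : E →L[ℂ] E) {m : ℝ} (hm0 : 0 < m)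
    (hm1 : m ≤ 18 / 181 * 10)
    (h : ∀ v : E, ‖v‖ = 1 → ‖(inner ℂ v (A v)) ^ 2 - 1‖ ≤ m)
    (hpos : ∀ v : E, ‖v‖ = 1 → 0 < (inner ℂ v (A v)).re) : ‖A * A - 1‖ ≤ 2 * m := by
  obtain ⟨t, ht0, ht, hmt⟩ := exists_param hm0 hm1
  exact lobe_family_t A ht0 ht hmt h hpos

/-- The lobe case, right half plane, `m` near `1`. -/
lemma lobe_fixed [CompleteSpace E] (A : E →L[ℂ] E) {m : ℝ} (hm2 : 18 / 181 * 10 ≤ m)
    (hm1 : m ≤ 1)
    (h : ∀ v : E, ‖v‖ = 1 → ‖(inner ℂ v (A v)) ^ 2 - 1‖ ≤ m)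
    (hpos : ∀ v : E, ‖v‖ = 1 → 0 < (inner ℂ v (A v)).re) : ‖A * A - 1‖ ≤ 2 * m := by
  have hm0 : 0 ≤ m := le_trans (by norm_num) hm2
  have hE : ∀ v : E, ‖v‖ = 1 →
      ((inner ℂ v (A v)).re - 5 / 7) ^ 2 / (5 / 7) ^ 2 + (inner ℂ v (A v)).im ^ 2 / (3 / 10) ≤ 1 := by
    intro v hv
    apply fixed_contain (hpos v hv)
    have := real_form A hm0 (h v hv)
    nlinarith
  have hbound := ellipse_bound A (κ := 5 / 7) (a := 5 / 7) (β := 3 / 10) (e₀ := 5 / 7)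
    (by norm_num) (by norm_num) (by norm_num) le_rfl hE
  refine hbound.trans ?_
  have := fixed_real
  linarith

/-- A vector with vanishing form gives a unit vector with vanishing form. -/
lemma exists_unit_form_zero (H : E →L[ℂ] E) {w : E} (hw : w ≠ 0)
    (h : (inner ℂ w (H w)).re = 0) : ∃ v : E, ‖v‖ = 1 ∧ (inner ℂ v (H v)).re = 0 := by
  have hn : ‖w‖ ≠ 0 := norm_ne_zero_iff.mpr hw
  set c : ℂ := ((‖w‖⁻¹ : ℝ) : ℂ) with hc
  refine ⟨c • w, ?_, ?_⟩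
  · rw [norm_smul, hc, Complex.norm_real, Real.norm_eq_abs, abs_of_pos (by positivity)]
    field_simp
  · rw [map_smul, inner_smul_left, inner_smul_right, hc]
    simp only [Complex.conj_ofReal, ← mul_assoc, ← Complex.ofReal_mul, Complex.re_ofReal_mul]
    rw [h]; ring

/-- The quadratic form of a symmetric operator cannot change sign without vanishing. -/
lemma sign_const (H : E →L[ℂ] E) (hH : ∀ u v, inner ℂ (H u) v = inner ℂ u (H v))
    (hne : ∀ v : E, ‖v‖ = 1 → (inner ℂ v (H v)).re ≠ 0) (u v : E)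
    (hu : 0 < (inner ℂ u (H u)).re) (hv : (inner ℂ v (H v)).re < 0) : False := by
  set α := (inner ℂ u (H u)).re with hα
  set γ := -(inner ℂ v (H v)).re with hγ
  have hγ0 : 0 < γ := by rw [hγ]; linarith
  set b := (inner ℂ u (H v)).re with hb
  set r := Real.sqrt (b ^ 2 + α * γ) with hr
  have hr2 : r ^ 2 = b ^ 2 + α * γ := Real.sq_sqrt (by positivity)
  set s : ℝ := (b + r) / γ with hs
  have hs2 : γ * s ^ 2 - 2 * b * s - α = 0 := by
    rw [hs]; field_simp; nlinarith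
  set w : E := u + (s : ℂ) • v with hw
  have hform : (inner ℂ w (H w)).re = α + 2 * s * b - s ^ 2 * γ := by
    have h1 : (inner ℂ v (H u)).re = b := by
      rw [← hH v u, re_inner_comm]
    simp only [hw, map_add, map_smul, inner_add_left, inner_add_right, inner_smul_left,
      inner_smul_right, Complex.add_re, Complex.conj_ofReal, ← mul_assoc, ← Complex.ofReal_mul,
      Complex.re_ofReal_mul, h1]
    rw [← hα, ← hb, hγ]
    ring
  have hw0 : (inner ℂ w (H w)).re = 0 := by rw [hform]; linarith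
  have hwne : w ≠ 0 := by
    intro h0
    have hu' : u = ((-s : ℝ) : ℂ) • v := by
      rw [hw] at h0
      have : u = - ((s : ℂ) • v) := eq_neg_of_add_eq_zero_left h0
      rw [this]; simp
    have : α = s ^ 2 * (-γ) := by
      rw [hα, hu', map_smul, inner_smul_left, inner_smul_right]
      simp only [Complex.conj_ofReal, ← mul_assoc, ← Complex.ofReal_mul, Complex.re_ofReal_mul]
      rw [hγ]; ring
    nlinarith [sq_nonneg s]
  obtain ⟨x, hx, hx0⟩ := exists_unit_form_zero H hwne hw0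
  exact hne x hx hx0

/-- The case `0 < m < 1`. -/
theorem lobe_case [CompleteSpace E] (A : E →L[ℂ] E) {m : ℝ} (hm0 : 0 < m) (hm1 : m < 1)
    (h : ∀ v : E, ‖v‖ = 1 → ‖(inner ℂ v (A v)) ^ 2 - 1‖ ≤ m) : ‖A * A - 1‖ ≤ 2 * m := by
  have right : ∀ B : E →L[ℂ] E, (∀ v : E, ‖v‖ = 1 → ‖(inner ℂ v (B v)) ^ 2 - 1‖ ≤ m) →
      (∀ v : E, ‖v‖ = 1 → 0 < (inner ℂ v (B v)).re) → ‖B * B - 1‖ ≤ 2 * m := by
    intro B h1 h2
    by_cases hc : m ≤ 18 / 181 * 10
    · exact lobe_family B hm0 hc h1 h2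
    · exact lobe_fixed B (by linarith) hm1.le h1 h2
  obtain ⟨H, K, hH, hK, hA⟩ := exists_cartesian A
  have hre : ∀ v, (inner ℂ v (A v)).re = (inner ℂ v (H v)).re := by
    intro v; rw [hA]; exact (form_cart H K hH hK v).1
  have hne : ∀ v : E, ‖v‖ = 1 → (inner ℂ v (H v)).re ≠ 0 := by
    intro v hv h0
    have := real_form A hm0.le (h v hv)
    rw [hre, h0] at this
    nlinarith [sq_nonneg (inner ℂ v (A v)).im, sq_nonneg ((inner ℂ v (A v)).im ^ 2)]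
  by_cases hall : ∀ v : E, ‖v‖ = 1 → 0 < (inner ℂ v (A v)).re
  · exact right A h hall
  · push Not at hall
    obtain ⟨u, hu, hu0⟩ := hall
    rw [hre] at hu0
    have hu1 : (inner ℂ u (H u)).re < 0 := lt_of_le_of_ne hu0 (hne u hu)
    have hneg : (-A) * (-A) - 1 = A * A - 1 := by rw [neg_mul_neg]
    rw [← hneg]
    apply right
    · intro v hv
      have := h v hv
      simp only [neg_apply, inner_neg_right]
      rwa [neg_sq]
    · intro v hv
      simp only [neg_apply, inner_neg_right, Complex.neg_re]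
      rw [hre]
      by_contra hc
      have hv0 : 0 < (inner ℂ v (H v)).re := by
        have := hne v hv
        rcases lt_or_gt_of_ne this with h3 | h3
        · exfalso; apply hc; linarith
        · exact h3
      exact sign_const H hH hne v u hv0 hu1

/-- All `m > 0`. -/
theorem pos_case [CompleteSpace E] (A : E →L[ℂ] E) {m : ℝ} (hm0 : 0 < m)
    (h : ∀ v : E, ‖v‖ = 1 → ‖(inner ℂ v (A v)) ^ 2 - 1‖ ≤ m) : ‖A * A - 1‖ ≤ 2 * m := by
  by_cases hm1 : m < 1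
  · exact lobe_case A hm0 hm1 h
  · exact three_case A (by linarith) h

end Vale.Agent.Lib.P123
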