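import Vale.Agent.Lib.P123.Lobe

/-!
The quadratic Crouzeix inequality: reductions to the normal form.
-/

namespace Vale.Agent.Lib.P123

open Complex

variable {E : Type*} [NormedAddCommGroup E] [InnerProductSpace ℂ E]

/-- The monic quadratic with nonzero constant term. -/
lemma monic_ne [CompleteSpace E] (A : E →L[ℂ] E) {d : ℂ} (hd : d ≠ 0) {M : ℝ} (hM : 0 < M)
    (h : ∀ v : E, ‖v‖ = 1 → ‖(inner ℂ v (A v)) ^ 2 + d‖ ≤ M) :
    ‖A * A + d • (1 : E →L[ℂ] E)‖ ≤ 2 * M := by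
  obtain ⟨c, hc⟩ := IsAlgClosed.exists_pow_nat_eq (-d) (n := 2) (by norm_num)
  have hc0 : c ≠ 0 := by
    rintro rfl
    apply hd
    simpa using hc.symm
  have hcn : 0 < ‖c‖ := norm_pos_iff.mpr hc0
  have hcn2 : 0 < ‖c‖ ^ 2 := by positivity
  have hz : ∀ v : E, inner ℂ v ((c⁻¹ • A) v) = c⁻¹ * inner ℂ v (A v) := by
    intro v; simp [inner_smul_right]
  have hfac : ∀ z : ℂ, (c⁻¹ * z) ^ 2 - 1 = (c ^ 2)⁻¹ * (z ^ 2 + d) := by
    intro z
    have : d = -c ^ 2 := by rw [hc]; ring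
    rw [this]
    field_simp
    ring
  have key := pos_case (c⁻¹ • A) (m := M / ‖c‖ ^ 2) (by positivity) (by
    intro v hv
    rw [hz, hfac, norm_mul, norm_inv, norm_pow, inv_mul_eq_div]
    exact div_le_div_of_nonneg_right (h v hv) hcn2.le)
  have hT : (c⁻¹ • A) * (c⁻¹ • A) - 1 = (c ^ 2)⁻¹ • (A * A + d • (1 : E →L[ℂ] E)) := by
    have hd' : d = -c ^ 2 := by rw [hc]; ring
    ext v
    simp only [sub_apply, mul_apply_eq_comp, smul_apply, map_smul, one_apply_eq_self, add_apply,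
      smul_add, smul_smul, hd']
    have h1 : (c ^ 2)⁻¹ * -c ^ 2 = -1 := by field_simp
    have h2 : c⁻¹ * c⁻¹ = (c ^ 2)⁻¹ := by field_simp
    rw [h1, h2]
    module
  rw [hT, norm_smul, norm_inv, norm_pow, inv_mul_eq_div, div_le_iff₀ hcn2] at key
  calc ‖A * A + d • (1 : E →L[ℂ] E)‖ ≤ 2 * (M / ‖c‖ ^ 2) * ‖c‖ ^ 2 := key
    _ = 2 * M := by field_simp

/-- The monic quadratic. -/
lemma monic_case [CompleteSpace E] [Nontrivial E] (A : E →L[ℂ] E) (d : ℂ) {M : ℝ}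
    (h : ∀ v : E, ‖v‖ = 1 → ‖(inner ℂ v (A v)) ^ 2 + d‖ ≤ M) :
    ‖A * A + d • (1 : E →L[ℂ] E)‖ ≤ 2 * M := by
  obtain ⟨v₀, hv₀⟩ := exists_norm_eq E (zero_le_one (α := ℝ))
  have hM0 : 0 ≤ M := (norm_nonneg _).trans (h v₀ hv₀)
  apply le_of_forall_pos_le_add
  intro ε hε
  set δ : ℝ := ε / 4 with hδ
  have hδ0 : 0 < δ := by positivity
  by_cases hd : d = 0
  · subst hd
    have hne : ((δ : ℝ) : ℂ) ≠ 0 := by exact_mod_cast hδ0.ne'
    have key := monic_ne A (d := ((δ : ℝ) : ℂ)) hne (M := M + δ) (by linarith) (by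
      intro v hv
      have h1 := h v hv
      rw [add_zero] at h1
      have h2 : ‖((δ : ℝ) : ℂ)‖ = δ := by simp [abs_of_pos hδ0]
      calc ‖inner ℂ v (A v) ^ 2 + ((δ : ℝ) : ℂ)‖ ≤ ‖inner ℂ v (A v) ^ 2‖ + ‖((δ : ℝ) : ℂ)‖ :=
            norm_add_le _ _
        _ ≤ M + δ := by rw [h2]; linarith)
    have h2 : ‖((δ : ℝ) : ℂ) • (1 : E →L[ℂ] E)‖ ≤ δ := by
      rw [norm_smul]
      have h3 : ‖(1 : E →L[ℂ] E)‖ ≤ 1 := ContinuousLinearMap.norm_id_le
      have h4 : ‖((δ : ℝ) : ℂ)‖ = δ := by simp [abs_of_pos hδ0]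
      rw [h4]
      nlinarith
    have h5 : A * A + (0 : ℂ) • (1 : E →L[ℂ] E) =
        (A * A + ((δ : ℝ) : ℂ) • (1 : E →L[ℂ] E)) - ((δ : ℝ) : ℂ) • (1 : E →L[ℂ] E) := by
      simp
    rw [h5]
    have h6 := norm_sub_le (A * A + ((δ : ℝ) : ℂ) • (1 : E →L[ℂ] E)) (((δ : ℝ) : ℂ) • (1 : E →L[ℂ] E))
    have hε' : ε = 4 * δ := by rw [hδ]; ring
    rw [hε']
    linarith
  · have key := monic_ne A hd (M := M + δ) (by linarith) (by
      intro v hv
      have := h v hv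
      linarith)
    have hε' : ε = 4 * δ := by rw [hδ]; ring
    rw [hε']
    linarith

/-- Extending a bound on the form from unit vectors. -/
lemma form_norm_scale (B : E →L[ℂ] E) {M : ℝ} (hM : 0 ≤ M)
    (h : ∀ v : E, ‖v‖ = 1 → ‖inner ℂ v (B v)‖ ≤ M) (v : E) :
    ‖inner ℂ v (B v)‖ ≤ M * ‖v‖ ^ 2 := by
  by_cases hv : v = 0
  · simp [hv]
  have hn : ‖v‖ ≠ 0 := norm_ne_zero_iff.mpr hv
  have hnp : 0 < ‖v‖ := by positivity
  set c : ℂ := ((‖v‖⁻¹ : ℝ) : ℂ) with hc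
  have hu : ‖c • v‖ = 1 := by
    rw [norm_smul, hc, Complex.norm_real, Real.norm_eq_abs, abs_of_pos (by positivity)]
    field_simp
  have h1 := h _ hu
  have e : inner ℂ (c • v) (B (c • v)) = (((‖v‖⁻¹) ^ 2 : ℝ) : ℂ) * inner ℂ v (B v) := by
    rw [map_smul, inner_smul_left, inner_smul_right, hc]
    simp only [Complex.conj_ofReal]
    push_cast
    ring
  rw [e, norm_mul, Complex.norm_real, Real.norm_eq_abs, abs_of_nonneg (by positivity)] at h1
  have hpos : 0 < ‖v‖ ^ 2 := by positivity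
  have e2 : (‖v‖⁻¹) ^ 2 * ‖v‖ ^ 2 = 1 := by field_simp
  calc ‖inner ℂ v (B v)‖ = (‖v‖⁻¹) ^ 2 * ‖inner ℂ v (B v)‖ * ‖v‖ ^ 2 := by
        calc ‖inner ℂ v (B v)‖ = ((‖v‖⁻¹) ^ 2 * ‖v‖ ^ 2) * ‖inner ℂ v (B v)‖ := by
              rw [e2, one_mul]
          _ = _ := by ring
    _ ≤ M * ‖v‖ ^ 2 := mul_le_mul_of_nonneg_right h1 hpos.le

/-- `‖B‖ ≤ 2 w(B)`. -/
lemma linear_case [Nontrivial E] (B : E →L[ℂ] E) {M : ℝ}
    (h : ∀ v : E, ‖v‖ = 1 → ‖inner ℂ v (B v)‖ ≤ M) : ‖B‖ ≤ 2 * M := by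
  obtain ⟨v₀, hv₀⟩ := exists_norm_eq E (zero_le_one (α := ℝ))
  have hM0 : 0 ≤ M := (norm_nonneg _).trans (h v₀ hv₀)
  have hb := form_norm_scale B hM0 h
  set s : ℝ := Real.sqrt 3 / 2 with hsdef
  have hs : s ^ 2 = 3 / 4 := by
    rw [hsdef, div_pow, Real.sq_sqrt (by norm_num)]; norm_num
  have hs0 : 0 ≤ s := by positivity
  have key : ∀ z : ℂ, ∀ ε : ℝ, ε ^ 2 = 1 → -z.re / 2 - ε * s * z.im ≤ ‖z‖ := by
    intro z ε hε
    apply le_of_abs_le (abs_le_of_sq_le_sq _ (norm_nonneg z))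
    rw [Complex.sq_norm, Complex.normSq_apply]
    have h1 : (ε * s) ^ 2 = 3 / 4 := by rw [mul_pow, hε, hs]; ring
    obtain ⟨τ, hτ⟩ : ∃ τ : ℝ, τ = ε * s := ⟨_, rfl⟩
    rw [← hτ] at h1 ⊢
    have h2 := sq_nonneg (z.re * τ - z.im / 2)
    have e1 : (z.re * τ - z.im / 2) ^ 2 =
        τ ^ 2 * z.re ^ 2 - z.re * τ * z.im + z.im ^ 2 / 4 := by ring
    have e2 : (-z.re / 2 - τ * z.im) ^ 2 =
        z.re ^ 2 / 4 + z.re * τ * z.im + τ ^ 2 * z.im ^ 2 := by ring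
    rw [e1, h1] at h2
    rw [e2, h1]
    nlinarith
  apply three_pol B hs hM0
  · intro v
    exact (Complex.re_le_norm _).trans (hb v)
  · intro v
    have := key (inner ℂ v (B v)) 1 (by norm_num)
    simp only [one_mul] at this
    exact this.trans (hb v)
  · intro v
    have := key (inner ℂ v (B v)) (-1) (by norm_num)
    have e : -(inner ℂ v (B v)).re / 2 - -1 * s * (inner ℂ v (B v)).im =
        -(inner ℂ v (B v)).re / 2 + s * (inner ℂ v (B v)).im := by ring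
    rw [e] at this
    exact this.trans (hb v)

/-- The quadratic Crouzeix inequality in coordinates. -/
theorem coord_case [CompleteSpace E] [Nontrivial E] (A : E →L[ℂ] E) (c₂ c₁ c₀ : ℂ) {M : ℝ}
    (h : ∀ v : E, ‖v‖ = 1 →
      ‖c₂ * (inner ℂ v (A v)) ^ 2 + c₁ * inner ℂ v (A v) + c₀‖ ≤ M) :
    ‖c₂ • (A * A) + c₁ • A + c₀ • (1 : E →L[ℂ] E)‖ ≤ 2 * M := by
  have hone : ∀ v : E, ‖v‖ = 1 → inner ℂ v v = (1 : ℂ) := by
    intro v hv
    rw [inner_self_eq_norm_sq_to_K, hv]; simp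
  by_cases hc : c₂ = 0
  · subst hc
    have := linear_case (c₁ • A + c₀ • (1 : E →L[ℂ] E)) (M := M) (by
      intro v hv
      have h1 := h v hv
      simp only [add_apply, smul_apply, one_apply_eq_self, inner_add_right, inner_smul_right,
        hone v hv, mul_one]
      simpa using h1)
    simpa using this
  · have hcn : 0 < ‖c₂‖ := norm_pos_iff.mpr hc
    set a : ℂ := c₁ / (2 * c₂) with ha
    set d : ℂ := c₀ / c₂ - a ^ 2 with hd
    have key := monic_case (A + a • (1 : E →L[ℂ] E)) d (M := M / ‖c₂‖) (by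
      intro v hv
      rw [le_div_iff₀ hcn]
      have h1 := h v hv
      have e : inner ℂ v ((A + a • (1 : E →L[ℂ] E)) v) = inner ℂ v (A v) + a := by
        simp only [add_apply, smul_apply, one_apply_eq_self, inner_add_right, inner_smul_right,
          hone v hv, mul_one]
      have e2 : c₂ * ((inner ℂ v (A v) + a) ^ 2 + d) =
          c₂ * inner ℂ v (A v) ^ 2 + c₁ * inner ℂ v (A v) + c₀ := by
        rw [hd, ha]
        field_simp
        ring
      rw [e, mul_comm, ← norm_mul, e2]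
      exact h1)
    have hop : c₂ • (A * A) + c₁ • A + c₀ • (1 : E →L[ℂ] E) =
        c₂ • ((A + a • (1 : E →L[ℂ] E)) * (A + a • (1 : E →L[ℂ] E)) + d • (1 : E →L[ℂ] E)) := by
      have h1 : c₁ = c₂ * (2 * a) := by
        rw [ha]; field_simp
      have h2 : c₀ = c₂ * (a ^ 2 + d) := by
        rw [hd]; field_simp; ring
      rw [h1, h2]
      ext v
      simp only [add_apply, mul_apply_eq_comp, smul_apply, one_apply_eq_self, map_add, map_smul,
        smul_add, smul_smul]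
      module
    rw [hop, norm_smul]
    calc ‖c₂‖ * ‖(A + a • (1 : E →L[ℂ] E)) * (A + a • (1 : E →L[ℂ] E)) + d • (1 : E →L[ℂ] E)‖
        ≤ ‖c₂‖ * (2 * (M / ‖c₂‖)) := mul_le_mul_of_nonneg_left key hcn.le
      _ = 2 * M := by field_simp

/-- The quadratic Crouzeix inequality for polynomials of degree at most two. -/
theorem polynomial_case [CompleteSpace E] [Nontrivial E] (A : E →L[ℂ] E) (P : Polynomial ℂ)
    (hP : P.natDegree ≤ 2) (M : ℝ)
    (hM : ∀ v : E, ‖v‖ = 1 → ‖P.eval (inner ℂ v (A v))‖ ≤ M) :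
    ‖Polynomial.aeval A P‖ ≤ 2 * M := by
  have hlt : P.natDegree < 3 := by omega
  have e1 : Polynomial.aeval A P =
      P.coeff 2 • (A * A) + P.coeff 1 • A + P.coeff 0 • (1 : E →L[ℂ] E) := by
    rw [Polynomial.aeval_eq_sum_range' hlt]
    simp only [Finset.sum_range_succ, Finset.sum_range_zero, zero_add, pow_zero, pow_one, pow_two]
    abel
  have e2 : ∀ z : ℂ, P.eval z = P.coeff 2 * z ^ 2 + P.coeff 1 * z + P.coeff 0 := by
    intro z
    rw [Polynomial.eval_eq_sum_range' hlt]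
    simp only [Finset.sum_range_succ, Finset.sum_range_zero, zero_add, pow_zero, pow_one]
    ring
  rw [e1]
  apply coord_case
  intro v hv
  rw [← e2]
  exact hM v hv

end Vale.Agent.Lib.P123
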