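import Vale.Agent.Lib.P123.Cart

/-!
The case `1 ≤ m` of the quadratic Crouzeix inequality, by a polarization through the cube roots
of unity.
-/

namespace Vale.Agent.Lib.P123

open Complex

variable {E : Type*} [NormedAddCommGroup E] [InnerProductSpace ℂ E]

/-- The squared modulus of `z ^ 2 - 1`. -/
lemma sq_norm_sq_sub_one (z : ℂ) :
    ‖z ^ 2 - 1‖ ^ 2 = (z.re ^ 2 - z.im ^ 2 - 1) ^ 2 + (2 * z.re * z.im) ^ 2 := by
  rw [Complex.sq_norm, Complex.normSq_apply]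
  simp [pow_two]
  ring

/-- Real and imaginary parts of the form of `H + i K`. -/
lemma form_cart (H K : E →L[ℂ] E) (hH : ∀ u v, inner ℂ (H u) v = inner ℂ u (H v))
    (hK : ∀ u v, inner ℂ (K u) v = inner ℂ u (K v)) (v : E) :
    (inner ℂ v ((H + I • K) v)).re = (inner ℂ v (H v)).re ∧
    (inner ℂ v ((H + I • K) v)).im = (inner ℂ v (K v)).re := by
  have hHim := im_form_eq_zero H hH v
  have hKim := im_form_eq_zero K hK v
  simp only [add_apply, smul_apply, inner_add_right, inner_smul_right, Complex.add_re,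
    Complex.add_im, Complex.mul_re, Complex.mul_im, I_re, I_im, hHim, hKim]
  constructor <;> ring

/-- The form of `(H + i K) ^ 2`. -/
lemma form_square (H K : E →L[ℂ] E) (hH : ∀ u v, inner ℂ (H u) v = inner ℂ u (H v))
    (hK : ∀ u v, inner ℂ (K u) v = inner ℂ u (K v)) (v : E) :
    (inner ℂ v (((H + I • K) * (H + I • K)) v)).re = ‖H v‖ ^ 2 - ‖K v‖ ^ 2 ∧
    (inner ℂ v (((H + I • K) * (H + I • K)) v)).im = 2 * (inner ℂ (H v) (K v)).re := by
  have e : inner ℂ v (((H + I • K) * (H + I • K)) v) =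
      inner ℂ (H v) (H v) + I * inner ℂ (H v) (K v) + I * inner ℂ (K v) (H v)
        - inner ℂ (K v) (K v) := by
    simp only [mul_apply_eq_comp, add_apply, smul_apply, map_add, map_smul,
      inner_add_right, inner_smul_right, hH, hK, smul_add, smul_smul]
    have hII : I * (I * inner ℂ v (K (K v))) = - inner ℂ v (K (K v)) := by
      rw [← mul_assoc, I_mul_I]; ring
    rw [← hK v (K v), ← hK v (H v), ← hH v (K v), ← hH v (H v)] at *
    linear_combination hII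
  have hH' := nsq_eq_re (H v)
  have hK' := nsq_eq_re (K v)
  have h0 : (inner ℂ (H v) (H v)).im = 0 := by
    have := im_inner_comm (H v) (H v); linarith
  have h1 : (inner ℂ (K v) (K v)).im = 0 := by
    have := im_inner_comm (K v) (K v); linarith
  have h2 := re_inner_comm (H v) (K v)
  have h3 := im_inner_comm (H v) (K v)
  rw [e]
  simp only [Complex.add_re, Complex.sub_re, Complex.add_im, Complex.sub_im, Complex.mul_re,
    Complex.mul_im, I_re, I_im, hH', hK', h0, h1]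
  constructor
  · linarith
  · rw [← h2]; ring

/-- Three direction polarization. -/
lemma pol_one (T : E →L[ℂ] E) (ζ : ℂ) (hζ : ζ * (starRingEnd ℂ) ζ = 1) (x y : E) :
    ζ * inner ℂ (x + ζ • y) (T (x + ζ • y)) =
      ζ * inner ℂ x (T x) + ζ ^ 2 * inner ℂ x (T y) + inner ℂ y (T x)
        + ζ * inner ℂ y (T y) := by
  simp only [map_add, map_smul, inner_add_left, inner_add_right, inner_smul_left,
    inner_smul_right]
  linear_combination (inner ℂ y (T x) + ζ * inner ℂ y (T y)) * hζ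

lemma nsq_pol (ζ : ℂ) (hζ : ‖ζ‖ = 1) (x y : E) :
    ‖x + ζ • y‖ ^ 2 = ‖x‖ ^ 2 + ‖y‖ ^ 2 + 2 * (ζ * inner ℂ x y).re := by
  rw [nsq_add, norm_smul, hζ, one_mul, inner_smul_right]

/-- The main polarization: a bound on the three rotated forms gives the norm bound. -/
lemma three_pol (T : E →L[ℂ] E) {m s : ℝ} (hs : s ^ 2 = 3 / 4) (hm : 0 ≤ m)
    (h1 : ∀ v, (inner ℂ v (T v)).re ≤ m * ‖v‖ ^ 2)
    (h2 : ∀ v, -(inner ℂ v (T v)).re / 2 - s * (inner ℂ v (T v)).im ≤ m * ‖v‖ ^ 2)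
    (h3 : ∀ v, -(inner ℂ v (T v)).re / 2 + s * (inner ℂ v (T v)).im ≤ m * ‖v‖ ^ 2) :
    ‖T‖ ≤ 2 * m := by
  apply opNorm_le_of_re T (by positivity)
  intro x y hx hy
  set ω : ℂ := ⟨-1 / 2, s⟩ with hω
  set ω' : ℂ := ⟨-1 / 2, -s⟩ with hω'
  have hc : ω' = (starRingEnd ℂ) ω := by
    apply Complex.ext <;> simp [hω, hω']
  have hc' : ω = (starRingEnd ℂ) ω' := by
    rw [hc]; simp
  have hωω : ω * ω' = 1 := by
    apply Complex.ext
    · simp [hω, hω', Complex.mul_re]; nlinarith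
    · simp [hω, hω', Complex.mul_im]; ring
  have hnorm : ‖ω‖ = 1 := by
    have : ‖ω‖ ^ 2 = 1 := by
      rw [Complex.sq_norm, Complex.normSq_apply]
      simp [hω]; nlinarith
    nlinarith [norm_nonneg ω]
  have hnorm' : ‖ω'‖ = 1 := by
    rw [hc]; simpa using hnorm
  have e1 := pol_one T 1 (by simp) x y
  have e2 := pol_one T ω (by rw [← hc]; exact hωω) x y
  have e3 := pol_one T ω' (by rw [← hc']; rw [mul_comm]; exact hωω) x y
  have n1 := nsq_pol 1 (by simp) x y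
  have n2 := nsq_pol ω hnorm x y
  have n3 := nsq_pol ω' hnorm' x y
  have b1 := h1 (x + (1:ℂ) • y)
  have b2 := h2 (x + ω • y)
  have b3 := h3 (x + ω' • y)
  have r2 : ∀ w : ℂ, (ω * w).re = -w.re / 2 - s * w.im := by
    intro w; simp [hω, Complex.mul_re]; ring
  have r3 : ∀ w : ℂ, (ω' * w).re = -w.re / 2 + s * w.im := by
    intro w; simp [hω', Complex.mul_re]; ring
  rw [← r2] at b2
  rw [← r3] at b3
  rw [e2] at b2
  rw [e3] at b3
  rw [one_mul] at e1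
  rw [e1] at b1
  have sq2 : ω ^ 2 = ω' := by
    apply Complex.ext
    · simp [hω, hω', pow_two, Complex.mul_re]; nlinarith
    · simp [hω, hω', pow_two, Complex.mul_im]; ring
  have sq3 : ω' ^ 2 = ω := by
    apply Complex.ext
    · simp [hω, hω', pow_two, Complex.mul_re]; nlinarith
    · simp [hω, hω', pow_two, Complex.mul_im]; ring
  rw [sq2] at b2
  rw [sq3] at b3
  rw [n1, hx, hy] at b1
  rw [n2, hx, hy] at b2
  rw [n3, hx, hy] at b3
  simp only [Complex.add_re, r2, r3, one_mul, one_pow] at b1 b2 b3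
  linarith

/-- Square roots of complex numbers, in real coordinates. -/
lemma exists_cd (a b : ℝ) : ∃ c d : ℝ, c ^ 2 - d ^ 2 = a ∧ 2 * c * d = b := by
  obtain ⟨z, hz⟩ := IsAlgClosed.exists_pow_nat_eq ((⟨a, b⟩ : ℂ)) (n := 2) (by norm_num)
  refine ⟨z.re, z.im, ?_, ?_⟩
  · have := congrArg Complex.re hz
    simp [pow_two, Complex.mul_re] at this
    nlinarith
  · have := congrArg Complex.im hz
    simp [pow_two, Complex.mul_im] at this
    nlinarith

/-- The strip bound for scalars. -/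
lemma scalar_strip {m c d s x y : ℝ} (hm : 1 ≤ m) (hs : s ^ 2 = 3 / 4)
    (h1 : c ^ 2 - d ^ 2 = -(m + 1) / 2) (h2 : 2 * c * d = -s * (m - 1))
    (h : (x ^ 2 - y ^ 2 - 1) ^ 2 + (2 * x * y) ^ 2 ≤ m ^ 2) :
    (c * x + d * y) ^ 2 ≤ (m - 1 / 2) ^ 2 := by
  set X := x ^ 2 - y ^ 2 - 1 with hX
  set Y := 2 * x * y with hY
  set a := (1 - m) / 2 with ha
  set b := -s * (m - 1) with hb
  have hab : a ^ 2 + b ^ 2 = (m - 1) ^ 2 := by
    rw [ha, hb]
    have : (-s * (m - 1)) ^ 2 = s ^ 2 * (m - 1) ^ 2 := by ring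
    rw [this, hs]; ring
  have cs : (a * X + b * Y) ^ 2 ≤ ((m - 1) * m) ^ 2 := by
    have h3 : (a * X + b * Y) ^ 2 ≤ (a ^ 2 + b ^ 2) * (X ^ 2 + Y ^ 2) := by
      nlinarith [sq_nonneg (a * Y - b * X)]
    rw [hab] at h3
    have h4 : (m - 1) ^ 2 * (X ^ 2 + Y ^ 2) ≤ (m - 1) ^ 2 * m ^ 2 :=
      mul_le_mul_of_nonneg_left h (sq_nonneg _)
    nlinarith
  have hmm : 0 ≤ (m - 1) * m := by
    apply mul_nonneg <;> linarith
  have cs' : a * X + b * Y ≤ (m - 1) * m := by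
    exact le_of_abs_le (abs_le_of_sq_le_sq cs hmm)
  have hρ : (c ^ 2 + d ^ 2) ^ 2 = (c ^ 2 - d ^ 2) ^ 2 + (2 * c * d) ^ 2 := by ring
  have hr : (x ^ 2 + y ^ 2) ^ 2 = (X + 1) ^ 2 + Y ^ 2 := by rw [hX, hY]; ring
  have hmain : (c * x + d * y) ^ 2 = ((c ^ 2 + d ^ 2) * (x ^ 2 + y ^ 2)
      + (c ^ 2 - d ^ 2) * (x ^ 2 - y ^ 2) + (2 * c * d) * (2 * x * y)) / 2 := by ring
  have hamgm : (c ^ 2 + d ^ 2) * (x ^ 2 + y ^ 2) ≤
      ((c ^ 2 + d ^ 2) ^ 2 + (x ^ 2 + y ^ 2) ^ 2) / 2 := by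
    nlinarith [sq_nonneg ((c ^ 2 + d ^ 2) - (x ^ 2 + y ^ 2))]
  rw [hρ, hr] at hamgm
  rw [hmain, ← hY]
  have hXe : x ^ 2 - y ^ 2 = X + 1 := by rw [hX]; ring
  rw [hXe]
  rw [h1, h2] at *
  have ea : -(m + 1) / 2 = a - 1 := by rw [ha]; ring
  rw [ea] at *
  nlinarith

/-- Squared norm of a real combination. -/
lemma nsq_comb (c d : ℝ) (p q : E) :
    ‖(c : ℂ) • p + (d : ℂ) • q‖ ^ 2 = c ^ 2 * ‖p‖ ^ 2 + d ^ 2 * ‖q‖ ^ 2
      + 2 * c * d * (inner ℂ p q).re := by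
  rw [nsq_add, norm_smul, norm_smul, inner_smul_left, inner_smul_right]
  simp only [Complex.norm_real, Real.norm_eq_abs, mul_pow, sq_abs, Complex.conj_ofReal,
    ← mul_assoc, ← Complex.ofReal_mul, Complex.re_ofReal_mul]

/-- The bound in the direction of a primitive cube root of unity. -/
lemma omega_bound (H K : E →L[ℂ] E) (hH : ∀ u v, inner ℂ (H u) v = inner ℂ u (H v))
    (hK : ∀ u v, inner ℂ (K u) v = inner ℂ u (K v)) {m s : ℝ} (hm : 1 ≤ m) (hs : s ^ 2 = 3 / 4)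
    (hC : ∀ v : E, ‖v‖ = 1 →
      ((inner ℂ v (H v)).re ^ 2 - (inner ℂ v (K v)).re ^ 2 - 1) ^ 2
        + (2 * (inner ℂ v (H v)).re * (inner ℂ v (K v)).re) ^ 2 ≤ m ^ 2) (v : E) :
    -(‖H v‖ ^ 2 - ‖K v‖ ^ 2) / 2 - 2 * s * (inner ℂ (H v) (K v)).re ≤ (m - 1 / 2) * ‖v‖ ^ 2 := by
  have hn : 0 < m - 1 / 2 := by linarith
  obtain ⟨c, d, h1, h2⟩ := exists_cd (-(m + 1) / 2) (-s * (m - 1))
  obtain ⟨e, f, h3, h4⟩ := exists_cd (1 - m / 2) (2 * s * m / 2)
  have hρ : c ^ 2 + d ^ 2 = e ^ 2 + f ^ 2 := by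
    have e1 : (c ^ 2 + d ^ 2) ^ 2 = (e ^ 2 + f ^ 2) ^ 2 := by
      have l : (c ^ 2 + d ^ 2) ^ 2 = (c ^ 2 - d ^ 2) ^ 2 + (2 * c * d) ^ 2 := by ring
      have r : (e ^ 2 + f ^ 2) ^ 2 = (e ^ 2 - f ^ 2) ^ 2 + (2 * e * f) ^ 2 := by ring
      rw [l, r, h1, h2, h3, h4]
      have l' : (-s * (m - 1)) ^ 2 = s ^ 2 * (m - 1) ^ 2 := by ring
      have r' : (2 * s * m / 2) ^ 2 = s ^ 2 * m ^ 2 := by ring
      rw [l', r', hs]; ring
    have p1 : 0 ≤ c ^ 2 + d ^ 2 := by positivity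
    have p2 : 0 ≤ e ^ 2 + f ^ 2 := by positivity
    exact (pow_left_inj₀ p1 p2 (by norm_num)).mp e1
  set L : E →L[ℂ] E := (c : ℂ) • H + (d : ℂ) • K with hL
  have hLs : ∀ u v, inner ℂ (L u) v = inner ℂ u (L v) := by
    intro u v
    simp [hL, inner_add_left, inner_add_right, inner_smul_left, inner_smul_right, hH, hK]
  have hform : ∀ w : E, ‖w‖ = 1 → |(inner ℂ w (L w)).re| ≤ m - 1 / 2 := by
    intro w hw
    have e0 : (inner ℂ w (L w)).re = c * (inner ℂ w (H w)).re + d * (inner ℂ w (K w)).re := by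
      simp [hL, inner_add_right, inner_smul_right]
    rw [e0]
    exact abs_le_of_sq_le_sq (scalar_strip hm hs h1 h2 (hC w hw)) hn.le
  have hb := nsq_le_of_form L hLs hn (form_scale L hform) v
  have hL1 : ‖L v‖ ^ 2 = c ^ 2 * ‖H v‖ ^ 2 + d ^ 2 * ‖K v‖ ^ 2
      + 2 * c * d * (inner ℂ (H v) (K v)).re := by
    rw [← nsq_comb]; simp [hL]
  have hL2 := sq_nonneg ‖(f : ℂ) • H v + (e : ℂ) • K v‖
  rw [nsq_comb] at hL2
  rw [hL1] at hb
  -- the three differences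
  have d1 : c ^ 2 - f ^ 2 = -(m - 1 / 2) / 2 := by nlinarith
  have d2 : d ^ 2 - e ^ 2 = (m - 1 / 2) / 2 := by nlinarith
  have d3 : 2 * c * d - 2 * f * e = - (2 * s) * (m - 1 / 2) := by
    have : 2 * f * e = 2 * e * f := by ring
    rw [this, h2, h4]; ring
  set P := ‖H v‖ ^ 2 with hP
  set Q := ‖K v‖ ^ 2 with hQ
  set W := (inner ℂ (H v) (K v)).re with hW
  set n := m - 1 / 2 with hn'
  have key : n * (-(P - Q) / 2 - 2 * s * W) ≤ n * (n * ‖v‖ ^ 2) := by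
    have e2 : n * (-(P - Q) / 2 - 2 * s * W) =
        (c ^ 2 * P + d ^ 2 * Q + 2 * c * d * W) - (f ^ 2 * P + e ^ 2 * Q + 2 * f * e * W) := by
      have : (c ^ 2 * P + d ^ 2 * Q + 2 * c * d * W) - (f ^ 2 * P + e ^ 2 * Q + 2 * f * e * W)
          = (c ^ 2 - f ^ 2) * P + (d ^ 2 - e ^ 2) * Q + (2 * c * d - 2 * f * e) * W := by ring
      rw [this, d1, d2, d3]; ring
    rw [e2]
    nlinarith
  exact le_of_mul_le_mul_left key hn

/-- The case `1 ≤ m`. -/
theorem three_case [CompleteSpace E] (A : E →L[ℂ] E) {m : ℝ} (hm : 1 ≤ m)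
    (h : ∀ v : E, ‖v‖ = 1 → ‖(inner ℂ v (A v)) ^ 2 - 1‖ ≤ m) : ‖A * A - 1‖ ≤ 2 * m := by
  obtain ⟨H, K, hH, hK, rfl⟩ := exists_cartesian A
  have hm0 : 0 < m := by linarith
  have hC : ∀ v : E, ‖v‖ = 1 →
      ((inner ℂ v (H v)).re ^ 2 - (inner ℂ v (K v)).re ^ 2 - 1) ^ 2
        + (2 * (inner ℂ v (H v)).re * (inner ℂ v (K v)).re) ^ 2 ≤ m ^ 2 := by
    intro v hv
    have h0 := h v hv
    have h1 := sq_norm_sq_sub_one (inner ℂ v ((H + I • K) v))
    obtain ⟨h2, h3⟩ := form_cart H K hH hK v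
    rw [h2, h3] at h1
    rw [← h1]
    exact pow_le_pow_left₀ (norm_nonneg _) h0 2
  have hK' : ∀ u v, inner ℂ ((-K) u) v = inner ℂ u ((-K) v) := by
    intro u v
    simp [inner_neg_left, inner_neg_right, hK]
  have hC' : ∀ v : E, ‖v‖ = 1 →
      ((inner ℂ v (H v)).re ^ 2 - (inner ℂ v ((-K) v)).re ^ 2 - 1) ^ 2
        + (2 * (inner ℂ v (H v)).re * (inner ℂ v ((-K) v)).re) ^ 2 ≤ m ^ 2 := by
    intro v hv
    have := hC v hv
    simp only [neg_apply, inner_neg_right, Complex.neg_re]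
    nlinarith
  -- the square root of `3 / 4`
  set s : ℝ := Real.sqrt 3 / 2 with hsdef
  have hs : s ^ 2 = 3 / 4 := by
    rw [hsdef, div_pow, Real.sq_sqrt (by norm_num)]; norm_num
  have hT : ∀ v, (inner ℂ v ((((H + I • K) * (H + I • K)) - 1) v)).re =
      ‖H v‖ ^ 2 - ‖K v‖ ^ 2 - ‖v‖ ^ 2 ∧
      (inner ℂ v ((((H + I • K) * (H + I • K)) - 1) v)).im =
        2 * (inner ℂ (H v) (K v)).re := by
    intro v
    obtain ⟨h1, h2⟩ := form_square H K hH hK v
    have h3 : (inner ℂ v v).im = 0 := by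
      have := im_inner_comm v v; linarith
    simp only [sub_apply, inner_sub_right, Complex.sub_re, Complex.sub_im, one_apply_eq_self]
    rw [h1, h2, nsq_eq_re, h3]
    constructor <;> ring
  apply three_pol _ hs hm0.le
  · intro v
    rw [(hT v).1]
    have hHs : ∀ w : E, ‖w‖ = 1 → |(inner ℂ w (H w)).re| ≤ Real.sqrt (1 + m) := by
      intro w hw
      apply Real.abs_le_sqrt
      have h5 := hC w hw
      nlinarith [sq_nonneg (inner ℂ w (K w)).re, sq_nonneg (inner ℂ w (H w)).re,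
        mul_nonneg (sq_nonneg (inner ℂ w (K w)).re) (sq_nonneg (inner ℂ w (H w)).re)]
    have hsq : 0 < Real.sqrt (1 + m) := Real.sqrt_pos.mpr (by linarith)
    have h6 := nsq_le_of_form H hH hsq (form_scale H hHs) v
    rw [Real.sq_sqrt (by linarith)] at h6
    nlinarith [sq_nonneg ‖K v‖]
  · intro v
    rw [(hT v).1, (hT v).2]
    have := omega_bound H K hH hK hm hs hC v
    nlinarith
  · intro v
    rw [(hT v).1, (hT v).2]
    have := omega_bound H (-K) hH hK' hm hs hC' v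
    simp only [neg_apply, norm_neg, inner_neg_right, Complex.neg_re] at this
    nlinarith

end Vale.Agent.Lib.P123
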