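import Mathlib

/-!
Vector level lemmas for the quadratic case of Crouzeix's inequality.
-/

namespace Vale.Agent.Lib.P123

open Complex

variable {E : Type*} [NormedAddCommGroup E] [InnerProductSpace ℂ E]

/-- Squared norm of a sum, with the real part of the inner product. -/
lemma nsq_add (a b : E) : ‖a + b‖ ^ 2 = ‖a‖ ^ 2 + ‖b‖ ^ 2 + 2 * (inner ℂ a b).re := by
  have := norm_add_sq (𝕜 := ℂ) a b
  simp only [RCLike.re_to_complex] at this
  linarith

lemma nsq_sub (a b : E) : ‖a - b‖ ^ 2 = ‖a‖ ^ 2 + ‖b‖ ^ 2 - 2 * (inner ℂ a b).re := by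
  have := norm_sub_sq (𝕜 := ℂ) a b
  simp only [RCLike.re_to_complex] at this
  linarith

lemma re_inner_comm (a b : E) : (inner ℂ a b).re = (inner ℂ b a).re := by
  have := inner_re_symm (𝕜 := ℂ) a b
  simpa using this

lemma im_inner_comm (a b : E) : (inner ℂ a b).im = -(inner ℂ b a).im := by
  have := inner_im_symm (𝕜 := ℂ) a b
  simpa using this

lemma nsq_eq_re (a : E) : (inner ℂ a a).re = ‖a‖ ^ 2 := by
  have := inner_self_eq_norm_sq (𝕜 := ℂ) a
  simpa using this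

lemma re_inner_I_right (a b : E) : (inner ℂ a (I • b)).re = -(inner ℂ a b).im := by
  rw [inner_smul_right]; simp

lemma re_inner_I_left (a b : E) : (inner ℂ (I • a) b).re = (inner ℂ a b).im := by
  rw [inner_smul_left]; simp

/-- Squared norm of `a + I b`. -/
lemma nsq_add_I (a b : E) : ‖a + I • b‖ ^ 2 = ‖a‖ ^ 2 + ‖b‖ ^ 2 - 2 * (inner ℂ a b).im := by
  rw [nsq_add, re_inner_I_right, norm_smul]; simp; try ring

/-- Squared norm of `a - I b`. -/
lemma nsq_sub_I (a b : E) : ‖a - I • b‖ ^ 2 = ‖a‖ ^ 2 + ‖b‖ ^ 2 + 2 * (inner ℂ a b).im := by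
  rw [nsq_sub, re_inner_I_right, norm_smul]; simp; try ring

/-- A symmetric operator has real quadratic form. -/
lemma im_form_eq_zero (L : E →L[ℂ] E) (hL : ∀ u v, inner ℂ (L u) v = inner ℂ u (L v)) (v : E) :
    (inner ℂ v (L v)).im = 0 := by
  have h3 := im_inner_comm (L v) v
  rw [hL v v] at h3
  linarith

/-- Numerical radius bound implies a norm bound for a symmetric operator. -/
lemma nsq_le_of_form (L : E →L[ℂ] E) (hL : ∀ u v, inner ℂ (L u) v = inner ℂ u (L v))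
    {n : ℝ} (hn : 0 < n) (h : ∀ v, |(inner ℂ v (L v)).re| ≤ n * ‖v‖ ^ 2) (v : E) :
    ‖L v‖ ^ 2 ≤ n ^ 2 * ‖v‖ ^ 2 := by
  set w := L v with hw
  set s : ℝ := 1 / n with hs
  have hspos : 0 < s := by positivity
  set w' : E := (s : ℂ) • w with hw'
  have h1 := (abs_le.mp (h (v + w'))).2
  have h2 := (abs_le.mp (h (v - w'))).1
  have e1 : (inner ℂ (v + w') (L (v + w'))).re - (inner ℂ (v - w') (L (v - w'))).re
      = 4 * (inner ℂ w' (L v)).re := by
    simp only [map_add, map_sub, inner_add_left, inner_add_right, inner_sub_left, inner_sub_right,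
      Complex.add_re, Complex.sub_re]
    have := hL v w'
    rw [← this, re_inner_comm (L v) w']
    ring
  have e2 : (inner ℂ w' (L v)).re = s * ‖w‖ ^ 2 := by
    rw [hw', inner_smul_left, ← hw, ← nsq_eq_re w]
    simp
  have e3 : ‖w'‖ ^ 2 = s ^ 2 * ‖w‖ ^ 2 := by
    rw [hw', norm_smul]
    simp [abs_of_pos hspos]
    ring
  have e4 := nsq_add v w'
  have e5 := nsq_sub v w'
  have key : 4 * (s * ‖w‖ ^ 2) ≤ n * (2 * ‖v‖ ^ 2 + 2 * (s ^ 2 * ‖w‖ ^ 2)) := by
    rw [← e2, ← e1]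
    nlinarith [h1, h2, e3, e4, e5]
  have hsn : s * n = 1 := by rw [hs]; field_simp
  have key2 : 4 * (s * ‖w‖ ^ 2) ≤ 2 * n * ‖v‖ ^ 2 + 2 * (s * (s * n)) * ‖w‖ ^ 2 := by
    nlinarith [key]
  rw [hsn] at key2
  have key3 : 2 * (s * ‖w‖ ^ 2) ≤ 2 * n * ‖v‖ ^ 2 := by nlinarith [key2]
  have key4 : s * ‖w‖ ^ 2 ≤ n * ‖v‖ ^ 2 := by linarith
  have key5 : n * (s * ‖w‖ ^ 2) ≤ n * (n * ‖v‖ ^ 2) :=
    mul_le_mul_of_nonneg_left key4 hn.le
  have key6 : n * (s * ‖w‖ ^ 2) = ‖w‖ ^ 2 := by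
    have : n * (s * ‖w‖ ^ 2) = (s * n) * ‖w‖ ^ 2 := by ring
    rw [this, hsn, one_mul]
  rw [key6] at key5
  nlinarith [key5]

end Vale.Agent.Lib.P123
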